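import Vale.Agent.P247.H350.E3.Pot
import Vale.Agent.P247.H264.L4J

/-!
# Trigonometric polynomials, the `L⁴` bound of `(-Δ)^(-1/2)`
-/

open scoped ContDiff Topology ComplexConjugate NNReal
open Set MeasureTheory Filter Metric

noncomputable section

namespace Vale.Agent.P247.H350.E3

open Vale.Agent.P247.H74 Vale.Agent.P247.H574 Vale.Agent.P247.H647 Vale.Agent.P247.H957
  Vale.Agent.P247.H94 Vale.Agent.P247.H264

/-- partial sums of the Fourier series -/
def pS (S : Finset Z4) (w : H) (x : R4) : ℂ := ∑ n ∈ S, cf w n * FF.ch n x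

theorem pS_smooth (S : Finset Z4) (w : H) : ContDiff ℝ ∞ (pS S w) :=
  ContDiff.sum fun n _ => contDiff_const.mul (FF.ch_smooth n)

theorem pS_cont (S : Finset Z4) (w : H) : Continuous (pS S w) := (pS_smooth S w).continuous

theorem ch_tr (n : Z4) (k : Fin 4 → ℤ) (x : R4) : FF.ch n (tr k x) = FF.ch n x := FF.ch_per n k x

theorem pS_per (S : Finset Z4) (w : H) (k : Fin 4 → ℤ) (x : R4) : pS S w (tr k x) = pS S w x := by
  unfold pS
  simp only [ch_tr]

theorem tl_pS (S : Finset Z4) (w : H) : tl (pS S w) (pS_cont S w) = ∑ n ∈ S, cf w n • bch n := by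
  refine cf_ext fun m => ?_
  rw [cf_tl, cf_sum]
  simp only [cf_smul, cf_bch]
  have h1 : FF.fc (pS S w) m = ∑ n ∈ S, FF.fc (fun x => cf w n * FF.ch n x) m := by
    unfold FF.fc pS
    simp only [Finset.mul_sum]
    rw [integral_finsetSum]
    intro n _
    exact ((FF.ch_cont _).mul (continuous_const.mul (FF.ch_cont n))).integrableOn_Icc
  rw [h1]
  refine Finset.sum_congr rfl fun n _ => ?_
  rw [FF.fc_smul', ← cf_tl (FF.ch n) (FF.ch_cont n)]
  show cf w n * cf (bch n) m = _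
  rw [cf_bch]

theorem tendsto_pS (w : H) : Tendsto (fun S => tl (pS S w) (pS_cont S w)) atTop (𝓝 w) := by
  have h := bas.hasSum_repr w
  have h1 : (fun n => bas.repr w n • bas n) = fun n => cf w n • bch n := by
    funext n
    rw [repr_bas, bas_apply]
  rw [h1] at h
  refine h.congr fun S => ?_
  rw [tl_pS]

theorem norm_pS_le (S : Finset Z4) (w : H) : ‖tl (pS S w) (pS_cont S w)‖ ≤ ‖w‖ := by
  classical
  refine le_of_sq_le_sq ?_ (norm_nonneg _)
  refine hasSum_le (fun m => ?_) (hasSum_norm _) (hasSum_norm w)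
  rw [tl_pS, cf_sum]
  simp only [cf_smul, cf_bch]
  have : ∑ n ∈ S, cf w n * (if m = n then (1 : ℂ) else 0) = if m ∈ S then cf w m else 0 := by
    simp
  rw [this]
  split_ifs
  · exact le_rfl
  · rw [norm_zero, zero_pow two_ne_zero]
    positivity

/-- `F` is the derivative of `w` in the direction `e i` -/
def PD (w F : H) (i : Fin 4) : Prop := ∀ n : Z4, cf F n = 2 * Real.pi * Complex.I * n i * cf w n

theorem pd_PZ (v : H) (i : Fin 4) : PD (PZ v) (RR i v) i := by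
  intro n
  rw [cf_RR, cf_PZ, rz_eq]
  ring

theorem fderiv_ch (n : Z4) (x : R4) (i : Fin 4) :
    fderiv ℝ (FF.ch n) x (e i) = 2 * Real.pi * Complex.I * n i * FF.ch n x := by
  have h1 : HasFDerivAt (fun x : R4 => 2 * Real.pi * Complex.I * ∑ i, (n i : ℂ) * x i)
      ((2 * Real.pi * Complex.I) • (∑ i, (n i : ℂ) •
        (Complex.ofRealCLM.comp (ContinuousLinearMap.proj i : R4 →L[ℝ] ℝ)))) x := by
    refine HasFDerivAt.const_mul (HasFDerivAt.fun_sum fun i _ => HasFDerivAt.const_mul ?_ _) _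
    exact (Complex.ofRealCLM.hasFDerivAt (x := x i)).comp x
      (ContinuousLinearMap.proj i : R4 →L[ℝ] ℝ).hasFDerivAt
  have h2 : HasFDerivAt (FF.ch n) _ x := h1.cexp
  rw [h2.fderiv]
  simp only [smul_apply, sum_apply,
    ContinuousLinearMap.comp_apply, ContinuousLinearMap.proj_apply, Complex.ofRealCLM_apply,
    smul_eq_mul]
  have h3 : ∑ j, (n j : ℂ) * (((e i : R4) j : ℝ) : ℂ) = n i := by
    rw [Finset.sum_eq_single i]
    · simp [e]
    · intro b _ hb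
      simp [e, Pi.single_eq_of_ne hb]
    · simp
  rw [h3]
  unfold FF.ch
  ring

theorem fderiv_pS {w F : H} {i : Fin 4} (h : PD w F i) (S : Finset Z4) (x : R4) :
    fderiv ℝ (pS S w) x (e i) = pS S F x := by
  have h1 : HasFDerivAt (pS S w) (∑ n ∈ S, cf w n • fderiv ℝ (FF.ch n) x) x := by
    refine HasFDerivAt.fun_sum fun n _ => HasFDerivAt.const_mul ?_ _
    exact (((FF.ch_smooth n (n := 1)).differentiable one_ne_zero) x).hasFDerivAt
  rw [h1.fderiv]
  simp only [sum_apply, smul_apply, fderiv_ch, smul_eq_mul]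
  unfold pS
  refine Finset.sum_congr rfl fun n _ => ?_
  rw [h n]
  ring

theorem lint_tl {f : R4 → ℂ} (hf : Continuous f) : ∫⁻ x, ‖f x‖ₑ ^ 2 ∂mQ = ‖tl f hf‖ₑ ^ 2 :=
  lint_rep (tl_ae f hf)

theorem L4_pS : ∃ C : ℝ≥0, ∀ (S : Finset Z4) (v : H),
    eLpNorm (pS S (PZ v)) 4 mQ ≤ C * ‖v‖ₑ := by
  obtain ⟨C, hC⟩ := gns_cube ℂ
  refine ⟨NNReal.sqrt (C * 17), fun S v => ?_⟩
  set u := pS S (PZ v) with hu
  set g : R4 → ENNReal := fun x => ‖u x‖ₑ ^ 2 + 4 * ∑ i, ‖pS S (RR i v) x‖ₑ ^ 2 with hg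
  have hle : ∀ x ∈ closedBall (0 : R4) 2, ‖u x‖ₑ ^ 2 + ‖fderiv ℝ u x‖ₑ ^ 2 ≤ g x := by
    intro x _
    simp only [hg]
    gcongr
    have h1 : ‖fderiv ℝ u x‖ ^ 2 ≤ 4 * ∑ i, ‖pS S (RR i v) x‖ ^ 2 := by
      have h2 := norm_le_sum_e (fderiv ℝ u x)
      have h3 : ∀ i, fderiv ℝ u x (e i) = pS S (RR i v) x := fun i => fderiv_pS (pd_PZ v i) S x
      simp only [h3] at h2
      calc ‖fderiv ℝ u x‖ ^ 2 ≤ (∑ i, ‖pS S (RR i v) x‖) ^ 2 := by gcongr
        _ ≤ 4 * ∑ i, ‖pS S (RR i v) x‖ ^ 2 := by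
            have := sq_sum_le_card_mul_sum_sq (s := (Finset.univ : Finset (Fin 4)))
              (f := fun i => ‖pS S (RR i v) x‖)
            simpa using this
    rw [enorm_sq]
    refine (ENNReal.ofReal_le_ofReal h1).trans ?_
    rw [ENNReal.ofReal_mul (by norm_num), ENNReal.ofReal_sum_of_nonneg fun _ _ => by positivity]
    simp only [enorm_sq]
    simp
  have hper : ∀ (k : Fin 4 → ℤ) x, g (tr k x) = g x := by
    intro k x
    simp only [hg, hu, pS_per]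
  have h3 := hC u g ((pS_smooth S _).of_le (by simp)) hle hper
  have hm : Measurable fun x => ‖u x‖ₑ ^ 2 := (pS_cont S _).enorm.measurable.pow_const 2
  have hm' : ∀ i ∈ Finset.univ, Measurable fun x => ‖pS S (RR i v) x‖ₑ ^ 2 := fun j _ =>
    (pS_cont S _).enorm.measurable.pow_const 2
  have h4 : ∫⁻ x, g x ∂mQ ≤ 17 * ‖v‖ₑ ^ 2 := by
    simp only [hg]
    rw [lintegral_add_left hm, lintegral_const_mul' _ _ (by norm_num), lintegral_finsetSum _ hm',
      lint_tl (pS_cont S (PZ v))]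
    have e1 : ∀ i, ∫⁻ x, ‖pS S (RR i v) x‖ₑ ^ 2 ∂mQ ≤ ‖v‖ₑ ^ 2 := by
      intro i
      rw [lint_tl (pS_cont S _), enorm_sq, enorm_sq]
      refine ENNReal.ofReal_le_ofReal ?_
      gcongr
      refine (norm_pS_le S _).trans ?_
      refine le_of_sq_le_sq ?_ (norm_nonneg _)
      refine hasSum_le (fun m => ?_) (hasSum_norm _) (hasSum_norm v)
      rw [cf_RR, norm_mul, mul_pow]
      exact mul_le_of_le_one_left (by positivity) (pow_le_one₀ (norm_nonneg _) (rz_le i m))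
    have e2 : ‖tl (pS S (PZ v)) (pS_cont S (PZ v))‖ₑ ^ 2 ≤ ‖v‖ₑ ^ 2 := by
      rw [enorm_sq, enorm_sq]
      refine ENNReal.ofReal_le_ofReal ?_
      gcongr
      refine (norm_pS_le S _).trans ?_
      refine le_of_sq_le_sq ?_ (norm_nonneg _)
      refine hasSum_le (fun m => ?_) (hasSum_norm _) (hasSum_norm v)
      rw [cf_PZ, norm_mul, mul_pow]
      exact mul_le_of_le_one_left (by positivity) (pow_le_one₀ (norm_nonneg _) (pz_le m))
    calc ‖tl (pS S (PZ v)) (pS_cont S (PZ v))‖ₑ ^ 2 + 4 * ∑ i, ∫⁻ x, ‖pS S (RR i v) x‖ₑ ^ 2 ∂mQ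
        ≤ ‖v‖ₑ ^ 2 + 4 * ∑ _i : Fin 4, ‖v‖ₑ ^ 2 := by
          gcongr with i
          exact e1 i
      _ = 17 * ‖v‖ₑ ^ 2 := by
          rw [Finset.sum_const, Finset.card_univ, Fintype.card_fin, nsmul_eq_mul]
          push_cast
          ring
  have h5 : eLpNorm u 4 mQ ^ 2 ≤ ((NNReal.sqrt (C * 17) : ℝ≥0) * ‖v‖ₑ) ^ 2 := by
    refine h3.trans ?_
    rw [mul_pow, ← ENNReal.coe_pow, NNReal.sq_sqrt, ENNReal.coe_mul, mul_assoc]
    gcongr
    simpa using h4
  exact (ENNReal.pow_le_pow_left_iff two_ne_zero).1 h5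

theorem L4_PZ : ∃ C : ℝ≥0, ∀ v : H, eLpNorm (PZ v) 4 mQ ≤ C * ‖v‖ₑ := by
  obtain ⟨C, hC⟩ := L4_pS
  refine ⟨C, fun v => ?_⟩
  obtain ⟨S, hS⟩ := exists_seq_tendsto (atTop : Filter (Finset Z4))
  refine le_of_tendsto_Lp ((tendsto_pS (PZ v)).comp hS) (c := fun _ => C * ‖v‖ₑ)
    tendsto_const_nhds fun n => ?_
  have h1 : eLpNorm (tl (pS (S n) (PZ v)) (pS_cont _ _)) 4 mQ = eLpNorm (pS (S n) (PZ v)) 4 mQ :=
    eLpNorm_congr_ae (tl_ae _ _)
  exact (le_of_eq h1).trans (hC (S n) v)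

end Vale.Agent.P247.H350.E3
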