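import Vale.Agent.P247.H350.E3.Sta
import Vale.Agent.P247.H350.FF5
import Vale.Agent.P247.H957.Four

/-!
# The Hilbert basis of characters of `L²` of the cube, Fourier multipliers
-/

open scoped ContDiff Topology ComplexConjugate
open Set MeasureTheory Filter Metric

noncomputable section

namespace Vale.Agent.P247.H350.E3

open Vale.Agent.P247.H74 Vale.Agent.P247.H574 Vale.Agent.P247.H647 Vale.Agent.P247.H957
  Vale.Agent.P247.H94

abbrev Z4 : Type := Fin 4 → ℤ

theorem memLp_cont {f : R4 → ℂ} (hf : Continuous f) : MemLp f 2 mQ := by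
  obtain ⟨C, hC⟩ := (isCompact_Icc (a := (0 : R4)) (b := 1)).exists_bound_of_continuousOn
    hf.continuousOn
  have : IsFiniteMeasure mQ := ⟨by
    rw [Measure.restrict_apply_univ]
    exact isCompact_Icc.measure_lt_top⟩
  refine MemLp.of_bound hf.aestronglyMeasurable C ?_
  rw [ae_restrict_iff' measurableSet_Icc]
  exact Eventually.of_forall fun x hx => hC x hx

/-- the class of a continuous function -/
def tl (f : R4 → ℂ) (hf : Continuous f) : H := (memLp_cont hf).toLp f

theorem tl_ae (f : R4 → ℂ) (hf : Continuous f) : tl f hf =ᵐ[mQ] f := (memLp_cont hf).coeFn_toLp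

theorem cf_tl (f : R4 → ℂ) (hf : Continuous f) (n : Z4) : cf (tl f hf) n = FF.fc f n := by
  unfold cf FF.fc
  refine integral_congr_ae ?_
  filter_upwards [tl_ae f hf] with x hx
  rw [hx]

/-- the characters -/
def bch (n : Z4) : H := tl (FF.ch n) (FF.ch_cont n)

theorem inner_bch (n : Z4) (w : H) : inner ℂ (bch n) w = cf w n := by
  rw [L2.inner_def]
  unfold cf
  refine integral_congr_ae ?_
  filter_upwards [tl_ae (FF.ch n) (FF.ch_cont n)] with x hx
  show inner ℂ (tl (FF.ch n) (FF.ch_cont n) x) (w x) = _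
  rw [hx, RCLike.inner_apply, FF.ch_neg, mul_comm]

theorem cf_bch (m n : Z4) : cf (bch n) m = if m = n then 1 else 0 := by
  unfold bch
  rw [cf_tl]
  have h := FF.fc_ch_mul (fun _ => 1) n m
  simp only [mul_one] at h
  rw [h]
  split_ifs with hmn
  · rw [hmn, sub_self, FF.fc_zero]
    simp only [integral_const, MeasurableSet.univ, measureReal_restrict_apply, univ_inter,
      Complex.real_smul, mul_one]
    exact_mod_cast FF.vol_cube
  · exact FF.fc_const (sub_ne_zero.2 hmn) 1

theorem ortho : Orthonormal ℂ bch := by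
  classical
  rw [orthonormal_iff_ite]
  intro m n
  rw [inner_bch, cf_bch]

theorem eq_zero_of_cf {w : H} (h : ∀ n, cf w n = 0) : w = 0 := by
  have h1 := eq_zero_of_fourier (Lp.memLp w) (fun k => by
    have h2 := h (-k)
    unfold cf at h2
    rw [← h2]
    refine integral_congr_ae (Eventually.of_forall fun x => ?_)
    have e1 : Complex.exp (((2 * Real.pi * ∑ i, (k i : ℝ) * x i : ℝ) : ℂ) * Complex.I) =
        FF.ch (- -k) x := by
      unfold FF.ch
      rw [neg_neg]
      congr 1
      push_cast
      ring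
    show _ * w x = FF.ch (- -k) x * w x
    rw [← e1])
  exact (Lp.eq_zero_iff_ae_eq_zero).2 h1

/-- the Hilbert basis of characters -/
def bas : HilbertBasis Z4 ℂ H := HilbertBasis.mkOfOrthogonalEqBot ortho (by
  rw [eq_bot_iff]
  intro w hw
  rw [Submodule.mem_bot]
  refine eq_zero_of_cf fun n => ?_
  rw [← inner_bch]
  exact (Submodule.mem_orthogonal _ _).1 hw _ (Submodule.subset_span ⟨n, rfl⟩))

theorem bas_apply (n : Z4) : bas n = bch n := by
  unfold bas
  rw [HilbertBasis.coe_mkOfOrthogonalEqBot]

theorem repr_bas (w : H) (n : Z4) : bas.repr w n = cf w n := by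
  rw [HilbertBasis.repr_apply_apply, bas_apply, inner_bch]

theorem cf_ext {v w : H} (h : ∀ n, cf v n = cf w n) : v = w := by
  apply bas.repr.injective
  ext n
  rw [repr_bas, repr_bas, h]

theorem cf_add (v w : H) (n : Z4) : cf (v + w) n = cf v n + cf w n := by
  simp only [← inner_bch, inner_add_right]

theorem cf_sub (v w : H) (n : Z4) : cf (v - w) n = cf v n - cf w n := by
  simp only [← inner_bch, inner_sub_right]

theorem cf_neg (w : H) (n : Z4) : cf (-w) n = -cf w n := by
  simp only [← inner_bch, inner_neg_right]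

theorem cf_smul (a : ℂ) (w : H) (n : Z4) : cf (a • w) n = a * cf w n := by
  simp only [← inner_bch, inner_smul_right]

theorem cf_zero (n : Z4) : cf 0 n = 0 := by
  simp only [← inner_bch, inner_zero_right]

theorem cf_sum {ι : Type*} (s : Finset ι) (w : ι → H) (n : Z4) :
    cf (∑ i ∈ s, w i) n = ∑ i ∈ s, cf (w i) n := by
  simp only [← inner_bch, inner_sum]

theorem cf_cont (n : Z4) : Continuous fun w : H => cf w n := by
  simp only [← inner_bch]
  exact continuous_const.inner continuous_id

theorem hasSum_inner (v w : H) : HasSum (fun n => conj (cf v n) * cf w n) (inner ℂ v w) := by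
  have h := bas.hasSum_inner_mul_inner v w
  have e1 : (fun n => inner ℂ v (bas n) * inner ℂ (bas n) w) =
      fun n => conj (cf v n) * cf w n := by
    funext n
    rw [bas_apply, inner_bch, ← inner_conj_symm, inner_bch]
  rwa [e1] at h

theorem hasSum_norm (w : H) : HasSum (fun n => ‖cf w n‖ ^ 2) (‖w‖ ^ 2) := by
  have h := (hasSum_inner w w).mapL Complex.reCLM
  have e1 : (fun n => Complex.reCLM (conj (cf w n) * cf w n)) = fun n => ‖cf w n‖ ^ 2 := by
    funext n
    rw [Complex.reCLM_apply, Complex.conj_mul']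
    norm_cast
  have e2 : Complex.reCLM (inner ℂ w w) = ‖w‖ ^ 2 := by
    rw [inner_self_eq_norm_sq_to_K, Complex.reCLM_apply]
    norm_cast
  rwa [e1, e2] at h

/-! ## Fourier multipliers -/

theorem exists_mult (m : Z4 → ℂ) {C : ℝ} (hC : ∀ n, ‖m n‖ ≤ C) :
    ∃ M : H →L[ℂ] H, (∀ w n, cf (M w) n = m n * cf w n) ∧ ‖M‖ ≤ C := by
  have hC0 : 0 ≤ C := (norm_nonneg _).trans (hC 0)
  have hmem : ∀ w : H, Memℓp (E := fun _ : Z4 => ℂ) (fun n => m n * cf w n) 2 := by
    intro w
    refine memℓp_gen ?_
    have h1 : Summable fun n => C ^ 2 * ‖cf w n‖ ^ 2 := (hasSum_norm w).summable.mul_left _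
    refine Summable.of_nonneg_of_le (fun n => by positivity) (fun n => ?_) h1
    simp only [ENNReal.toReal_ofNat, Real.rpow_ofNat, norm_mul, mul_pow]
    gcongr
    exact hC n
  let L : H →ₗ[ℂ] H :=
    { toFun := fun w => bas.repr.symm ⟨fun n => m n * cf w n, hmem w⟩
      map_add' := by
        intro v w
        apply bas.repr.injective
        rw [map_add]
        simp only [LinearIsometryEquiv.apply_symm_apply]
        ext n
        simp only [lp.coeFn_add, Pi.add_apply]
        rw [cf_add, mul_add]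
      map_smul' := by
        intro a w
        apply bas.repr.injective
        rw [map_smul]
        simp only [LinearIsometryEquiv.apply_symm_apply]
        ext n
        simp only [lp.coeFn_smul, Pi.smul_apply, RingHom.id_apply, smul_eq_mul]
        rw [cf_smul]
        ring }
  have hL : ∀ w n, cf (L w) n = m n * cf w n := by
    intro w n
    rw [← repr_bas]
    show bas.repr (bas.repr.symm _) n = _
    rw [LinearIsometryEquiv.apply_symm_apply]
  have hb : ∀ w, ‖L w‖ ≤ C * ‖w‖ := by
    intro w
    have h1 := hasSum_norm (L w)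
    have h2 := (hasSum_norm w).mul_left (C ^ 2)
    have h3 : ‖L w‖ ^ 2 ≤ C ^ 2 * ‖w‖ ^ 2 := by
      refine hasSum_le (fun n => ?_) h1 h2
      rw [hL, norm_mul, mul_pow]
      gcongr
      exact hC n
    rw [← mul_pow] at h3
    exact le_of_sq_le_sq h3 (by positivity)
  exact ⟨L.mkContinuous C hb, hL, LinearMap.mkContinuous_norm_le _ hC0 _⟩

open Classical in
/-- the Fourier multiplier with symbol `m` (zero if `m` is unbounded) -/
def mult (m : Z4 → ℂ) : H →L[ℂ] H :=
  if h : ∃ C : ℝ, ∀ n, ‖m n‖ ≤ C then (exists_mult m h.choose_spec).choose else 0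

theorem cf_mult {m : Z4 → ℂ} {C : ℝ} (hC : ∀ n, ‖m n‖ ≤ C) (w : H) (n : Z4) :
    cf (mult m w) n = m n * cf w n := by
  have h : ∃ C : ℝ, ∀ n, ‖m n‖ ≤ C := ⟨C, hC⟩
  unfold mult
  rw [dif_pos h]
  exact (exists_mult m h.choose_spec).choose_spec.1 w n

end Vale.Agent.P247.H350.E3
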