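import Vale.Agent.P247.H350.E3.Pop

/-!
# The operator `G`
-/

open scoped ContDiff Topology ComplexConjugate
open Set MeasureTheory Filter Metric

noncomputable section

namespace Vale.Agent.P247.H350.E3

open Vale.Agent.P247.H74 Vale.Agent.P247.H574 Vale.Agent.P247.H647 Vale.Agent.P247.H957
  Vale.Agent.P247.H94

theorem const_eq {w : H} {c : ℂ} (h : w =ᵐ[mQ] fun _ => c) : w = c • bch 0 := by
  refine Lp.ext ?_
  filter_upwards [h, Lp.coeFn_smul c (bch 0), tl_ae (FF.ch 0) (FF.ch_cont 0)] with x h1 h2 h3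
  rw [h1, h2, Pi.smul_apply]
  show c = c • (tl (FF.ch 0) (FF.ch_cont 0) x)
  rw [h3]
  simp [FF.ch]

theorem exists_pre (hC : COER_statement) (hR : RNG_statement) (D : Data) (Q : Quat D) (y : Y3)
    (hy : ∀ l, cf (y l) 0 = 0) : ∃ b ∈ V, Pf D b = y := by
  obtain ⟨d, hd, hb⟩ := Pf_bound hC D Q
  have hcl := closed_range_of_bound (Pf D ∘L V.subtypeL) hd hb
  set rg : Submodule ℂ Y3 := (Pf D ∘L V.subtypeL).range with hrg
  have : CompleteSpace rg := hcl.completeSpace_coe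
  have hy' : y ∈ rg ⊔ rgᗮ := by
    rw [Submodule.sup_orthogonal_of_hasOrthogonalProjection]; trivial
  obtain ⟨r, hr, z, hz, hrz⟩ := Submodule.mem_sup.1 hy'
  have hz1 : ∀ b ∈ V, inner ℂ z (Pf D b) = 0 := fun b hb' =>
    (Submodule.mem_orthogonal' _ _).1 hz _ ⟨⟨b, hb'⟩, rfl⟩
  obtain ⟨c, hc⟩ := hR D Q (fun l => z l) (clo_of_orth D z hz1)
  have h1 : inner ℂ z y = 0 := by
    rw [PiLp.inner_apply]
    refine Finset.sum_eq_zero fun l _ => ?_
    have : z l = c l • bch 0 := const_eq (hc l)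
    rw [this, inner_smul_left, inner_bch, hy, mul_zero]
  have h2 : inner ℂ z r = 0 := (Submodule.mem_orthogonal' _ _).1 hz _ hr
  have h3 : z = 0 := by
    rw [← inner_self_eq_zero (𝕜 := ℂ)]
    have : z = y - r := by rw [← hrz]; abel
    rw [show inner ℂ z z = inner ℂ z (y - r) by rw [← this], inner_sub_right, h1, h2, sub_zero]
  rw [h3, add_zero] at hrz
  obtain ⟨b, hb'⟩ := hr
  exact ⟨b, b.2, hb'.trans hrz⟩

theorem cf_bch_zero (n : Z4) : cf (bch 0) n = if n = 0 then 1 else 0 := cf_bch n 0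

theorem exists_G (hC : COER_statement) (hR : RNG_statement) (D : Data) (Q : Quat D) :
    ∃ G : Y3 →L[ℂ] X4, ∀ y, G y ∈ V ∧ ∀ l, Pc D l (G y) = y l - cf (y l) 0 • bch 0 := by
  obtain ⟨d, hd, hb⟩ := Pf_bound hC D Q
  have hinj : ∀ b ∈ V, Pf D b = 0 → b = 0 := by
    intro b hbV h
    have h1 := hb ⟨b, hbV⟩
    have h2 : (Pf D ∘L V.subtypeL) ⟨b, hbV⟩ = 0 := h
    rw [h2, norm_zero] at h1
    have h3 : ‖(⟨b, hbV⟩ : V)‖ ≤ 0 := by
      by_contra hcon
      push Not at hcon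
      nlinarith
    have h4 : ‖b‖ ≤ 0 := h3
    exact norm_le_zero_iff.1 h4
  -- subtract the mean
  set m : Y3 → Y3 := fun y => WithLp.toLp 2 fun l => y l - cf (y l) 0 • bch 0 with hm
  have hmc : ∀ y l, cf (m y l) 0 = 0 := by
    intro y l
    show cf (y l - cf (y l) 0 • bch 0) 0 = 0
    rw [cf_sub, cf_smul, cf_bch_zero, if_pos rfl, mul_one, sub_self]
  choose f hfV hf using fun y => exists_pre hC hR D Q (m y) (hmc y)
  have hmadd : ∀ y z, m (y + z) = m y + m z := by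
    intro y z
    ext1 l
    show (y l + z l) - cf (y l + z l) 0 • bch 0 =
      (y l - cf (y l) 0 • bch 0) + (z l - cf (z l) 0 • bch 0)
    rw [cf_add, add_smul]
    abel
  have hmsmul : ∀ (a : ℂ) y, m (a • y) = a • m y := by
    intro a y
    ext1 l
    show (a • y l) - cf (a • y l) 0 • bch 0 = a • (y l - cf (y l) 0 • bch 0)
    rw [cf_smul, smul_sub, smul_smul]
  have hmle : ∀ y, ‖m y‖ ≤ ‖y‖ := by
    intro y
    refine le_of_sq_le_sq ?_ (norm_nonneg _)
    rw [PiLp.norm_sq_eq_of_L2, PiLp.norm_sq_eq_of_L2]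
    refine Finset.sum_le_sum fun l _ => ?_
    refine hasSum_le (fun n => ?_) (hasSum_norm (m y l)) (hasSum_norm (y l))
    have h1 : cf (m y l) n = if n = 0 then 0 else cf (y l) n := by
      show cf (y l - cf (y l) 0 • bch 0) n = _
      rw [cf_sub, cf_smul, cf_bch_zero]
      split_ifs with h
      · rw [h]; ring
      · ring
    rw [h1]
    split_ifs
    · rw [norm_zero, zero_pow two_ne_zero]
      positivity
    · exact le_rfl
  let L : Y3 →ₗ[ℂ] X4 :=
    { toFun := f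
      map_add' := fun y z => by
        rw [← sub_eq_zero]
        refine hinj _ (V.sub_mem (hfV _) (V.add_mem (hfV _) (hfV _))) ?_
        rw [map_sub, map_add, hf, hf, hf, hmadd, sub_self]
      map_smul' := fun a y => by
        rw [← sub_eq_zero]
        refine hinj _ (V.sub_mem (hfV _) (V.smul_mem _ (hfV _))) ?_
        rw [map_sub, RingHom.id_apply, map_smul, hf, hf, hmsmul, sub_self] }
  have hL : ∀ y, ‖L y‖ ≤ d⁻¹ * ‖y‖ := by
    intro y
    have h1 := hb ⟨f y, hfV y⟩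
    have h2 : (Pf D ∘L V.subtypeL) ⟨f y, hfV y⟩ = m y := hf y
    rw [h2] at h1
    have h3 : d * ‖f y‖ ≤ ‖m y‖ := h1
    show ‖f y‖ ≤ _
    rw [inv_mul_eq_div, le_div_iff₀ hd, mul_comm]
    exact h3.trans (hmle y)
  refine ⟨L.mkContinuous _ hL, fun y => ⟨hfV y, fun l => ?_⟩⟩
  have h1 := hf y
  have h2 := congrArg (fun z : Y3 => z l) h1
  exact h2

end Vale.Agent.P247.H350.E3
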