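import Vale.Agent.P247.H350.E3.Nem
import Vale.Agent.P247.H350.E3.Gop

/-!
# The connection as a function of the spinor
-/

open scoped ContDiff Topology ComplexConjugate NNReal
open Set MeasureTheory Filter Metric

noncomputable section

namespace Vale.Agent.P247.H350.E3

open Vale.Agent.P247.H74 Vale.Agent.P247.H574 Vale.Agent.P247.H647 Vale.Agent.P247.H957
  Vale.Agent.P247.H94 Vale.Agent.P247.H264 Vale.Agent.P247.H931.S1

/-! ### the map to `L⁴` -/

/-- the real vector field with components `re (w i)` -/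
def rv (w : Fin 4 → H) (x : R4) (i : Fin 4) : ℝ := (w i x).re

theorem rv_sm (w : Fin 4 → H) : StronglyMeasurable (rv w) := by
  refine (Measurable.stronglyMeasurable ?_)
  exact measurable_pi_iff.2 fun i =>
    Complex.measurable_re.comp (Lp.stronglyMeasurable (w i)).measurable

theorem rv_le (w : Fin 4 → H) (x : R4) : ‖rv w x‖ ≤ ∑ i, ‖w i x‖ := by
  rw [pi_norm_le_iff_of_nonneg (Finset.sum_nonneg fun _ _ => norm_nonneg _)]
  intro i
  calc ‖rv w x i‖ ≤ ‖w i x‖ := Complex.abs_re_le_norm _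
    _ ≤ ∑ i, ‖w i x‖ := Finset.single_le_sum (f := fun i => ‖w i x‖)
        (fun _ _ => norm_nonneg _) (Finset.mem_univ i)

theorem eLp_rv (w : Fin 4 → H) : eLpNorm (rv w) 4 mQ ≤ ∑ i, eLpNorm (w i) 4 mQ := by
  have h1 : eLpNorm (rv w) 4 mQ ≤ eLpNorm (fun x => ∑ i, ‖w i x‖) 4 mQ := by
    refine eLpNorm_mono fun x => ?_
    rw [Real.norm_of_nonneg (Finset.sum_nonneg fun _ _ => norm_nonneg _)]
    exact rv_le w x
  refine h1.trans ?_
  have h2 : (fun x => ∑ i, ‖w i x‖) = ∑ i, fun x => ‖w i x‖ := by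
    funext x
    rw [Finset.sum_apply]
  rw [h2]
  refine (eLpNorm_sum_le (fun i _ => (Lp.aestronglyMeasurable (w i)).norm) (by norm_num)).trans ?_
  exact le_of_eq (Finset.sum_congr rfl fun i _ => eLpNorm_norm _)

theorem exists_LL : ∃ L : X4 →L[ℝ] Lp (Fin 4 → ℝ) 4 mQ,
    ∀ b : X4, L b =ᵐ[mQ] rv fun i => PZ (b i) := by
  obtain ⟨C, hC⟩ := L4_PZ
  have hb : ∀ b : X4, eLpNorm (rv fun i => PZ (b i)) 4 mQ ≤ (4 * C : ℝ≥0) * ‖b‖ₑ := by
    intro b
    refine (eLp_rv _).trans ?_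
    calc ∑ i, eLpNorm (PZ (b i)) 4 mQ ≤ ∑ _i : Fin 4, C * ‖b‖ₑ := by
          refine Finset.sum_le_sum fun i _ => (hC (b i)).trans ?_
          gcongr
          rw [← ofReal_norm, ← ofReal_norm]
          exact ENNReal.ofReal_le_ofReal (PiLp.norm_apply_le b i)
      _ = (4 * C : ℝ≥0) * ‖b‖ₑ := by
          rw [Finset.sum_const, Finset.card_univ, Fintype.card_fin, nsmul_eq_mul]
          push_cast
          ring
  have hm : ∀ b : X4, MemLp (rv fun i => PZ (b i)) 4 mQ := fun b =>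
    ⟨(rv_sm _).aestronglyMeasurable, (hb b).trans_lt (ENNReal.mul_lt_top ENNReal.coe_lt_top enorm_lt_top)⟩
  let L : X4 →ₗ[ℝ] Lp (Fin 4 → ℝ) 4 mQ :=
    { toFun := fun b => (hm b).toLp _
      map_add' := by
        intro a b
        refine Lp.ext ?_
        have h0 : ∀ i, (PZ ((a + b) i) : R4 → ℂ) =ᵐ[mQ] fun x => PZ (a i) x + PZ (b i) x := by
          intro i
          rw [PiLp.add_apply, map_add]
          exact Lp.coeFn_add _ _
        filter_upwards [(hm (a + b)).coeFn_toLp, (hm a).coeFn_toLp, (hm b).coeFn_toLp,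
          Lp.coeFn_add ((hm a).toLp _) ((hm b).toLp _), ae_all_iff.2 h0] with x h1 h2 h3 h4 h5
        rw [h1, h4, Pi.add_apply, h2, h3]
        funext i
        show (PZ ((a + b) i) x).re = (PZ (a i) x).re + (PZ (b i) x).re
        rw [h5 i, Complex.add_re]
      map_smul' := by
        intro c b
        refine Lp.ext ?_
        have h0 : ∀ i, (PZ ((c • b) i) : R4 → ℂ) =ᵐ[mQ] fun x => (c : ℂ) * PZ (b i) x := by
          intro i
          have e1 : (c • b) i = (c : ℂ) • b i := rfl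
          rw [e1, map_smul]
          filter_upwards [Lp.coeFn_smul (c : ℂ) (PZ (b i))] with x hx
          rw [hx]
          rfl
        filter_upwards [(hm (c • b)).coeFn_toLp, (hm b).coeFn_toLp,
          Lp.coeFn_smul c ((hm b).toLp _), ae_all_iff.2 h0] with x h1 h2 h3 h4
        rw [RingHom.id_apply, h1, h3, Pi.smul_apply, h2]
        funext i
        show (PZ ((c • b) i) x).re = c * (PZ (b i) x).re
        rw [h4 i, Complex.re_ofReal_mul] }
  refine ⟨L.mkContinuous (4 * C : ℝ≥0) fun b => ?_, fun b => (hm b).coeFn_toLp⟩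
  show ‖(hm b).toLp _‖ ≤ _
  rw [Lp.norm_toLp]
  have h1 := ENNReal.toReal_mono (ENNReal.mul_ne_top ENNReal.coe_ne_top enorm_ne_top) (hb b)
  rw [ENNReal.toReal_mul] at h1
  simpa using h1

/-! ### the right hand side -/

/-- the components of `dd A0 ∧ tri l` -/
def w0 (D : Data) (l : Fin 3) (x : R4) : ℂ := (wdA F0 (triA D l x) : ℂ)

theorem w0_cont (D : Data) (l : Fin 3) : Continuous (w0 D l) := by
  unfold w0 wdA triA
  refine FF.cont_ofReal ?_
  have := fun p q : Fin 4 => cont_val (tri D l) (e p) (e q)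
  fun_prop

theorem Tc_cont {D : Data} (Q : Quat D) (l k : Fin 3) : Continuous fun x => (Q.T x l k : ℂ) :=
  FF.cont_ofReal (Q.T_smooth l k).continuous

theorem qc_cont (R : ℝ) (k : Fin 3) : Continuous fun s => (qR R s k : ℂ) :=
  Complex.continuous_ofReal.comp (qR_cont R k)

theorem qc_le {R : ℝ} (hR : 0 < R) (k : Fin 3) (s : Sp) :
    ‖(qR R s k : ℂ)‖ ≤ ‖pau k‖ * (2 * R ^ 2) := by
  rw [Complex.norm_real]
  exact abs_qR_le' hR s k

/-- the right hand side -/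
def hv {D : Data} (Q : Quat D) {R : ℝ} (hR : 0 < R) (u : HH) : Y3 :=
  WithLp.toLp 2 fun l => -tl (w0 D l) (w0_cont D l) -
    (1 / 2 : ℂ) • ∑ k, mulOp (fun x => (Q.T x l k : ℂ)) (nem (qc_cont R k) (qc_le hR k) u)

theorem hv_cont {D : Data} (Q : Quat D) {R : ℝ} (hR : 0 < R) : Continuous (hv Q hR) := by
  refine (PiLp.continuous_toLp 2 _).comp (continuous_pi fun l => ?_)
  have h : Continuous fun u : HH =>
      ∑ k, mulOp (fun x => (Q.T x l k : ℂ)) (nem (qc_cont R k) (qc_le hR k) u) :=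
    continuous_finsetSum _ fun k _ => (mulOp _).continuous.comp (nem_cont _ _)
  exact continuous_const.sub ((continuous_const_smul (1 / 2 : ℂ)).comp h)

theorem hv_phase {D : Data} (Q : Quat D) {R : ℝ} (hR : 0 < R) {c : ℂ} (hc : ‖c‖ = 1) (u : HH) :
    hv Q hR (c • u) = hv Q hR u := by
  unfold hv
  have h : ∀ k, nem (qc_cont R k) (qc_le hR k) (c • u) = nem (qc_cont R k) (qc_le hR k) u :=
    fun k => nem_phase _ _ (fun s => by rw [qR_phase R c hc]) u
  simp only [h]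

theorem hv_ae {D : Data} (Q : Quat D) {R : ℝ} (hR : 0 < R) (u : HH) (l : Fin 3) :
    ∀ᵐ x ∂mQ, hv Q hR u l x = ((-wdA F0 (triA D l x) -
      (1 / 2) * ∑ k, Q.T x l k * qR R (spv u x) k : ℝ) : ℂ) := by
  have h1 : Rep (∑ k, mulOp (fun x => (Q.T x l k : ℂ)) (nem (qc_cont R k) (qc_le hR k) u))
      fun x => ∑ k, (Q.T x l k : ℂ) * (qR R (spv u x) k : ℂ) :=
    rep_sum _ fun k _ => rep_mulOp (Tc_cont Q l k) (nem_ae _ _ u)
  set S := ∑ k, mulOp (fun x => (Q.T x l k : ℂ)) (nem (qc_cont R k) (qc_le hR k) u) with hS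
  filter_upwards [h1, Lp.coeFn_sub (-tl (w0 D l) (w0_cont D l)) ((1 / 2 : ℂ) • S),
    Lp.coeFn_neg (tl (w0 D l) (w0_cont D l)), tl_ae (w0 D l) (w0_cont D l),
    Lp.coeFn_smul (1 / 2 : ℂ) S] with x e1 e2 e3 e4 e5
  have e0 : hv Q hR u l = -tl (w0 D l) (w0_cont D l) - (1 / 2 : ℂ) • S := rfl
  rw [e0, e2, Pi.sub_apply, e3, e5, Pi.neg_apply, e4, Pi.smul_apply, e1]
  unfold w0
  push_cast
  rw [smul_eq_mul]

/-! ### bounds -/

theorem norm_sq_int (w : H) : ‖w‖ ^ 2 = ∫ x, ‖w x‖ ^ 2 ∂mQ := by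
  have h1 : ((‖w‖ ^ 2 : ℝ) : ℂ) = inner ℂ w w := by
    rw [inner_self_eq_norm_sq_to_K]
    push_cast
    rfl
  rw [L2.inner_def] at h1
  have h2 : ∀ x, (inner ℂ (w x) (w x) : ℂ) = ((‖w x‖ ^ 2 : ℝ) : ℂ) := by
    intro x
    rw [inner_self_eq_norm_sq_to_K]
    push_cast
    rfl
  simp only [h2] at h1
  rw [integral_complex_ofReal] at h1
  exact_mod_cast h1

theorem int_sq (w : H) : Integrable (fun x => ‖w x‖ ^ 2) mQ := (Lp.memLp w).integrable_norm_pow (by norm_num)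

theorem exists_bd {f : R4 → ℝ} (hf : Continuous f) : ∃ C : ℝ, 0 ≤ C ∧ ∀ᵐ x ∂mQ, |f x| ≤ C := by
  obtain ⟨C, hC⟩ := (isCompact_Icc (a := (0 : R4)) (b := 1)).exists_bound_of_continuousOn
    hf.continuousOn
  refine ⟨|C|, abs_nonneg _, ?_⟩
  rw [ae_restrict_iff' measurableSet_Icc]
  exact Eventually.of_forall fun x hx => (hC x hx).trans (le_abs_self C)

theorem int_spv (u : HH) : Integrable (fun x => ‖spv u x‖ ^ 2) mQ ∧
    ∫ x, ‖spv u x‖ ^ 2 ∂mQ = ‖u‖ ^ 2 := by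
  have h1 : ∀ x, ‖spv u x‖ ^ 2 = ‖u 0 x‖ ^ 2 + ‖u 1 x‖ ^ 2 := by
    intro x
    rw [EuclideanSpace.norm_sq_eq]
    simp [spv]
  simp only [h1]
  refine ⟨(int_sq _).add (int_sq _), ?_⟩
  rw [integral_add (int_sq _) (int_sq _), ← norm_sq_int, ← norm_sq_int, PiLp.norm_sq_eq_of_L2,
    Fin.sum_univ_two]

theorem norm_cf_zero_le (w : H) : ‖cf w 0‖ ≤ ∫ x, ‖w x‖ ∂mQ := by
  unfold cf
  refine (norm_integral_le_integral_norm _).trans (le_of_eq ?_)
  refine integral_congr_ae (Eventually.of_forall fun x => ?_)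
  show ‖FF.ch (-0) x * w x‖ = ‖w x‖
  rw [norm_mul, FF.norm_ch, one_mul]

/-- pointwise bounds of the right hand side, independent of `R` -/
theorem hv_bound {D : Data} (Q : Quat D) : ∃ C : ℝ, 0 ≤ C ∧ ∀ {R : ℝ} (hR : 0 < R) (u : HH)
    (l : Fin 3), ∀ᵐ x ∂mQ, ‖hv Q hR u l x‖ ≤ C * (1 + ∑ k, |qR R (spv u x) k|) := by
  have h1 : ∀ l : Fin 3, ∃ C : ℝ, 0 ≤ C ∧ ∀ᵐ x ∂mQ, |wdA F0 (triA D l x)| ≤ C := by
    intro l
    have h := w0_cont D l
    have h2 : Continuous fun x => wdA F0 (triA D l x) := by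
      have := Complex.continuous_re.comp h
      exact this
    exact exists_bd h2
  have h2 : ∀ l k : Fin 3, ∃ C : ℝ, 0 ≤ C ∧ ∀ᵐ x ∂mQ, |Q.T x l k| ≤ C := fun l k =>
    exists_bd (Q.T_smooth l k).continuous
  choose c1 hc1 h1 using h1
  choose c2 hc2 h2 using h2
  refine ⟨∑ l, (c1 l + ∑ k, c2 l k), Finset.sum_nonneg fun l _ => add_nonneg (hc1 l)
    (Finset.sum_nonneg fun k _ => hc2 l k), fun {R} hR u l => ?_⟩
  filter_upwards [hv_ae Q hR u l, ae_all_iff.2 h1, ae_all_iff.2 fun l => ae_all_iff.2 (h2 l)]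
    with x e1 e2 e3
  rw [e1, Complex.norm_real, Real.norm_eq_abs]
  have e4 : |(∑ k, Q.T x l k * qR R (spv u x) k)| ≤ (∑ k, c2 l k) * ∑ k, |qR R (spv u x) k| := by
    calc |(∑ k, Q.T x l k * qR R (spv u x) k)| ≤ ∑ k, |Q.T x l k * qR R (spv u x) k| :=
          Finset.abs_sum_le_sum_abs _ _
      _ ≤ ∑ k, c2 l k * ∑ k', |qR R (spv u x) k'| := by
          refine Finset.sum_le_sum fun k _ => ?_
          rw [abs_mul]
          gcongr
          · exact hc2 l k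
          · exact e3 l k
          · exact Finset.single_le_sum (f := fun k => |qR R (spv u x) k|)
              (fun _ _ => abs_nonneg _) (Finset.mem_univ k)
      _ = _ := by rw [Finset.sum_mul]
  have e5 : c1 l + ∑ k, c2 l k ≤ ∑ l, (c1 l + ∑ k, c2 l k) :=
    Finset.single_le_sum (f := fun l => c1 l + ∑ k, c2 l k) (fun l _ => add_nonneg (hc1 l)
      (Finset.sum_nonneg fun k _ => hc2 l k)) (Finset.mem_univ l)
  have hS : 0 ≤ ∑ k, |qR R (spv u x) k| := Finset.sum_nonneg fun _ _ => abs_nonneg _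
  have hc : 0 ≤ ∑ k, c2 l k := Finset.sum_nonneg fun k _ => hc2 l k
  have h6 := hc1 l
  calc |(-wdA F0 (triA D l x) - 1 / 2 * ∑ k, Q.T x l k * qR R (spv u x) k)|
      ≤ |wdA F0 (triA D l x)| + 1 / 2 * |(∑ k, Q.T x l k * qR R (spv u x) k)| := by
        refine (abs_sub _ _).trans ?_
        rw [abs_neg, abs_mul]
        norm_num
    _ ≤ c1 l + 1 / 2 * ((∑ k, c2 l k) * ∑ k, |qR R (spv u x) k|) := by
        gcongr
        exact e2 l
    _ ≤ (c1 l + ∑ k, c2 l k) * (1 + ∑ k, |qR R (spv u x) k|) := by nlinarith [mul_nonneg hc hS, mul_nonneg h6 hS]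
    _ ≤ _ := by gcongr

end Vale.Agent.P247.H350.E3
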