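import Vale.Agent.P247.H350.E3.Hv

/-!
# `E34`: the connection as a function of the spinor
-/

open scoped ContDiff Topology ComplexConjugate NNReal
open Set MeasureTheory Filter Metric

noncomputable section

namespace Vale.Agent.P247.H350.E3

open Vale.Agent.P247.H74 Vale.Agent.P247.H574 Vale.Agent.P247.H647 Vale.Agent.P247.H957
  Vale.Agent.P247.H94 Vale.Agent.P247.H264 Vale.Agent.P247.H931.S1

theorem re_loc {f : R4 → ℂ} (hf : LocL2 f) : LocL2 fun x => (f x).re := fun K hK => (hf K hK).re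

theorem re_wkd {f F : R4 → ℂ} {i : Fin 4} (hf : LocL2 f) (hF : LocL2 F) (h : WkD f F i) :
    WkD (fun x => (f x).re) (fun x => (F x).re) i := by
  intro η hη hc
  have hd : Continuous fun x => fderiv ℝ η x (e i) :=
    (hη.continuous_fderiv (by simp)).clm_apply continuous_const
  have hdc : HasCompactSupport fun x => fderiv ℝ η x (e i) := hc.fderiv_apply (𝕜 := ℝ) (e i)
  have h1 := Complex.reCLM.integral_comp_comm (int_test hf hd hdc)
  have h2 := Complex.reCLM.integral_comp_comm (int_test hF hη.continuous hc)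
  have h3 := congrArg Complex.re (h η hη hc)
  have e1 : ∀ x, Complex.reCLM (fderiv ℝ η x (e i) • f x) = fderiv ℝ η x (e i) • (f x).re := by
    intro x
    rw [map_smul]
    rfl
  have e2 : ∀ x, Complex.reCLM (η x • F x) = η x • (F x).re := by
    intro x
    rw [map_smul]
    rfl
  simp only [e1] at h1
  simp only [e2] at h2
  rw [h1, h2]
  rw [Complex.neg_re] at h3
  exact h3

theorem h1r {b : X4} : H1R (fun i x => (pe (PZ (b i)) x).re) (fun i j x => (pe (RR i (b j)) x).re) where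
  a_loc i := re_loc (pe_loc _)
  B_loc i j := re_loc (pe_loc _)
  a_per i k x := by rw [pe_per]
  B_per i j k x := by rw [pe_per]
  der i j := re_wkd (pe_loc _) (pe_loc _) (wkd_pe (pd_PZ (b j) i))

theorem div_V {b : X4} (hb : b ∈ V) : ∑ i, RR i (b i) = 0 := by
  refine cf_ext fun n => ?_
  rw [cf_sum, cf_zero]
  simp only [cf_RR]
  unfold rz
  have h : ∀ i, Complex.I * (n i : ℂ) / an n * cf (b i) n =
      Complex.I / an n * ((n i : ℂ) * cf (b i) n) := fun i => by ring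
  simp only [h, ← Finset.mul_sum, hb.1 n, mul_zero]

theorem div_ae {b : X4} (hb : b ∈ V) : ∀ᵐ x, ∑ i, (pe (RR i (b i)) x).re = 0 := by
  refine ae_of_per (fun k x => by simp only [pe_per]) ?_
  have h1 : Rep (∑ i, RR i (b i)) fun x => ∑ i, pe (RR i (b i)) x :=
    rep_sum _ fun i _ => (pe_ae _).symm
  rw [div_V hb] at h1
  filter_upwards [h1, Lp.coeFn_zero ℂ 2 mQ] with x h2 h3
  rw [h3] at h2
  rw [← Complex.re_sum, ← h2]
  rfl

theorem rep_sub {v w : H} {φ χ : R4 → ℂ} (h : Rep v φ) (h' : Rep w χ) :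
    Rep (v - w) fun x => φ x - χ x := by
  filter_upwards [Lp.coeFn_sub v w, h, h'] with x h1 h2 h3
  rw [h1, Pi.sub_apply, h2, h3]

theorem rep_cu (b : X4) (i j : Fin 4) :
    Rep (cu i j b) fun x => pe (RR i (b j)) x - pe (RR j (b i)) x := by
  rw [cu_apply]
  exact rep_sub (pe_ae _).symm (pe_ae _).symm

theorem curv_ae (D : Data) (b : X4) (l : Fin 3) : ∀ᵐ x ∂mQ, (Pc D l b x).re =
    wdA (curl (fun i j x => (pe (RR i (b j)) x).re) x) (triA D l x) := by
  have h : ∀ i j p q : Fin 4, Rep (mulOp (tc D l p q) (cu i j b))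
      fun x => tc D l p q x * (pe (RR i (b j)) x - pe (RR j (b i)) x) := fun i j p q =>
    rep_mulOp (cont_tc D l p q) (rep_cu b i j)
  have h1 := rep_add (rep_sub (rep_add (rep_add (rep_sub (h 0 1 2 3) (h 0 2 1 3)) (h 0 3 1 2))
    (h 1 2 0 3)) (h 1 3 0 2)) (h 2 3 0 1)
  rw [Pc_eq]
  unfold PP
  filter_upwards [h1] with x hx
  rw [hx]
  unfold tc wdA curl triA
  simp only [Complex.add_re, Complex.sub_re, Complex.re_ofReal_mul]
  ring

theorem sum_sq_le (b : X4) : ∫ x, ∑ i, (pe (PZ (b i)) x).re ^ 2 ∂mQ ≤ ‖b‖ ^ 2 := by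
  have h1 : ∀ i, (fun x => ‖pe (PZ (b i)) x‖ ^ 2) =ᵐ[mQ] fun x => ‖PZ (b i) x‖ ^ 2 := by
    intro i
    filter_upwards [pe_ae (PZ (b i))] with x hx
    rw [hx]
  have h2 : ∀ i, Integrable (fun x => ‖pe (PZ (b i)) x‖ ^ 2) mQ := fun i =>
    (integrable_congr (h1 i)).2 (int_sq _)
  have h3 : ∀ i, ∫ x, ‖pe (PZ (b i)) x‖ ^ 2 ∂mQ ≤ ‖b i‖ ^ 2 := by
    intro i
    rw [integral_congr_ae (h1 i), ← norm_sq_int]
    refine hasSum_le (fun m => ?_) (hasSum_norm _) (hasSum_norm (b i))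
    rw [cf_PZ, norm_mul, mul_pow]
    exact mul_le_of_le_one_left (by positivity) (pow_le_one₀ (norm_nonneg _) (pz_le m))
  calc ∫ x, ∑ i, (pe (PZ (b i)) x).re ^ 2 ∂mQ ≤ ∫ x, ∑ i, ‖pe (PZ (b i)) x‖ ^ 2 ∂mQ := by
        refine integral_mono_of_nonneg (Eventually.of_forall fun x =>
          Finset.sum_nonneg fun _ _ => sq_nonneg _) (integrable_finsetSum _ fun i _ => h2 i)
          (Eventually.of_forall fun x => Finset.sum_le_sum fun i _ => ?_)
        rw [← sq_abs]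
        gcongr
        exact Complex.abs_re_le_norm _
    _ = ∑ i, ∫ x, ‖pe (PZ (b i)) x‖ ^ 2 ∂mQ := integral_finsetSum _ fun i _ => h2 i
    _ ≤ ∑ i, ‖b i‖ ^ 2 := Finset.sum_le_sum fun i _ => h3 i
    _ = ‖b‖ ^ 2 := (PiLp.norm_sq_eq_of_L2 _ b).symm

theorem bch_zero_ae : (bch 0 : R4 → ℂ) =ᵐ[mQ] fun _ => 1 := by
  filter_upwards [tl_ae (FF.ch 0) (FF.ch_cont 0)] with x hx
  show tl (FF.ch 0) (FF.ch_cont 0) x = 1
  rw [hx]
  simp [FF.ch]

theorem qR_meas (R : ℝ) (u : HH) (k : Fin 3) : StronglyMeasurable fun x => qR R (spv u x) k :=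
  (qR_cont R k).comp_stronglyMeasurable (spv_sm u)

theorem int_abs_qR {R : ℝ} (hR : 0 < R) (u : HH) (k : Fin 3) :
    Integrable (fun x => |qR R (spv u x) k|) mQ :=
  (Integrable.of_bound (qR_meas R u k).aestronglyMeasurable (‖pau k‖ * (2 * R ^ 2))
    (Eventually.of_forall fun _ => abs_qR_le' hR _ k)).abs

theorem int_sq_qR {R : ℝ} (hR : 0 < R) (u : HH) (k : Fin 3) :
    Integrable (fun x => qR R (spv u x) k ^ 2) mQ := by
  refine Integrable.of_bound ((qR_meas R u k).pow 2).aestronglyMeasurable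
    ((‖pau k‖ * (2 * R ^ 2)) ^ 2) (Eventually.of_forall fun x => ?_)
  rw [Real.norm_eq_abs, abs_pow]
  gcongr
  exact abs_qR_le' hR _ k

/-- `E34` -/
theorem e34 (hC : COER_statement) (hR : RNG_statement) : E34_statement := by
  intro D _ Q
  obtain ⟨G, hG⟩ := exists_G hC hR D Q
  obtain ⟨L, hL⟩ := exists_LL
  obtain ⟨C, hC0, hb⟩ := hv_bound Q
  -- bound of the mean
  have hmean : ∀ {R : ℝ} (hR : 0 < R) (u : HH) (l : Fin 3),
      ‖cf (hv Q hR u l) 0‖ ≤ C * (1 + ∑ k, ‖pau k‖) * (1 + ‖u‖ ^ 2) := by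
    intro R hR u l
    have h1 : ∫ x, ‖hv Q hR u l x‖ ∂mQ ≤ ∫ x, C * (1 + ∑ k, |qR R (spv u x) k|) ∂mQ := by
      refine integral_mono_ae ((Lp.memLp (hv Q hR u l)).integrable one_le_two).norm ?_
        (hb hR u l)
      exact ((integrable_const 1).add (integrable_finsetSum _ fun k _ =>
        int_abs_qR hR u k)).const_mul C
    have h2 : ∫ x, C * (1 + ∑ k, |qR R (spv u x) k|) ∂mQ ≤
        ∫ x, C * (1 + (∑ k, ‖pau k‖) * ‖spv u x‖ ^ 2) ∂mQ := by
      refine integral_mono (((integrable_const 1).add (integrable_finsetSum _ fun k _ =>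
        int_abs_qR hR u k)).const_mul C) (((integrable_const 1).add
        ((int_spv u).1.const_mul _)).const_mul C) fun x => ?_
      show C * (1 + ∑ k, |qR R (spv u x) k|) ≤ C * (1 + (∑ k, ‖pau k‖) * ‖spv u x‖ ^ 2)
      rw [Finset.sum_mul]
      gcongr with k
      exact abs_qR_le R _ k
    have h3 : ∫ x, C * (1 + (∑ k, ‖pau k‖) * ‖spv u x‖ ^ 2) ∂mQ =
        C * (1 + (∑ k, ‖pau k‖) * ‖u‖ ^ 2) := by
      rw [integral_const_mul, integral_add (integrable_const 1) ((int_spv u).1.const_mul _),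
        integral_const_mul, (int_spv u).2, integral_const]
      simp
    have hP : 0 ≤ ∑ k, ‖pau k‖ := Finset.sum_nonneg fun _ _ => norm_nonneg _
    calc ‖cf (hv Q hR u l) 0‖ ≤ ∫ x, ‖hv Q hR u l x‖ ∂mQ := norm_cf_zero_le _
      _ ≤ C * (1 + (∑ k, ‖pau k‖) * ‖u‖ ^ 2) := (h1.trans h2).trans (le_of_eq h3)
      _ ≤ C * ((1 + ∑ k, ‖pau k‖) * (1 + ‖u‖ ^ 2)) := by
          gcongr
          nlinarith [sq_nonneg ‖u‖]
      _ = _ := by ring
  -- bound of the square norm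
  have hsq : ∀ {R : ℝ} (hR : 0 < R) (u : HH),
      ‖hv Q hR u‖ ^ 2 ≤ 12 * C ^ 2 * (1 + ∫ x, ∑ k, qR R (spv u x) k ^ 2 ∂mQ) := by
    intro R hR u
    rw [PiLp.norm_sq_eq_of_L2]
    have h1 : ∀ l, ‖hv Q hR u l‖ ^ 2 ≤ 4 * C ^ 2 * (1 + ∫ x, ∑ k, qR R (spv u x) k ^ 2 ∂mQ) := by
      intro l
      rw [norm_sq_int]
      have hI : Integrable (fun x => ∑ k, qR R (spv u x) k ^ 2) mQ :=
        integrable_finsetSum _ fun k _ => int_sq_qR hR u k
      have h2 : ∫ x, ‖hv Q hR u l x‖ ^ 2 ∂mQ ≤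
          ∫ x, 4 * C ^ 2 * (1 + ∑ k, qR R (spv u x) k ^ 2) ∂mQ := by
        refine integral_mono_ae (int_sq _) (((integrable_const 1).add hI).const_mul _) ?_
        filter_upwards [hb hR u l] with x hx
        have h3 : ‖hv Q hR u l x‖ ^ 2 ≤ (C * (1 + ∑ k, |qR R (spv u x) k|)) ^ 2 := by gcongr
        refine h3.trans ?_
        rw [mul_pow]
        have h4 : (1 + ∑ k, |qR R (spv u x) k|) ^ 2 ≤ 4 * (1 + ∑ k, qR R (spv u x) k ^ 2) := by
          simp only [Fin.sum_univ_three]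
          have e0 := sq_abs (qR R (spv u x) 0)
          have e1 := sq_abs (qR R (spv u x) 1)
          have e2 := sq_abs (qR R (spv u x) 2)
          rw [← e0, ← e1, ← e2]
          nlinarith [sq_nonneg (1 - |qR R (spv u x) 0|), sq_nonneg (1 - |qR R (spv u x) 1|),
            sq_nonneg (1 - |qR R (spv u x) 2|),
            sq_nonneg (|qR R (spv u x) 0| - |qR R (spv u x) 1|),
            sq_nonneg (|qR R (spv u x) 0| - |qR R (spv u x) 2|),
            sq_nonneg (|qR R (spv u x) 1| - |qR R (spv u x) 2|)]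
        show C ^ 2 * (1 + ∑ k, |qR R (spv u x) k|) ^ 2 ≤ 4 * C ^ 2 * (1 + ∑ k, qR R (spv u x) k ^ 2)
        calc C ^ 2 * (1 + ∑ k, |qR R (spv u x) k|) ^ 2
            ≤ C ^ 2 * (4 * (1 + ∑ k, qR R (spv u x) k ^ 2)) := by gcongr
          _ = _ := by ring
      refine h2.trans (le_of_eq ?_)
      rw [integral_const_mul, integral_add (integrable_const 1) hI, integral_const]
      simp
    calc ∑ l, ‖hv Q hR u l‖ ^ 2 ≤ ∑ _l : Fin 3, 4 * C ^ 2 *
          (1 + ∫ x, ∑ k, qR R (spv u x) k ^ 2 ∂mQ) := Finset.sum_le_sum fun l _ => h1 l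
      _ = _ := by
          rw [Finset.sum_const, Finset.card_univ, Fintype.card_fin, nsmul_eq_mul]
          push_cast
          ring
  refine ⟨max (C * (1 + ∑ k, ‖pau k‖)) (‖G‖ ^ 2 * (12 * C ^ 2)), fun R hRpos =>
    ⟨fun u => L (G (hv Q hRpos u)), ?_⟩⟩
  refine ⟨L.continuous.comp (G.continuous.comp (hv_cont Q hRpos)), ?_, ?_, ?_⟩
  · -- boundedness
    have h1 : ∃ M : ℝ, ∀ u, ‖hv Q hRpos u‖ ≤ M := by
      refine ⟨√(12 * C ^ 2 * (1 + ∑ k, (‖pau k‖ * (2 * R ^ 2)) ^ 2)), fun u => ?_⟩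
      refine Real.le_sqrt_of_sq_le ((hsq hRpos u).trans ?_)
      gcongr
      calc ∫ x, ∑ k, qR R (spv u x) k ^ 2 ∂mQ ≤ ∫ _x, ∑ k, (‖pau k‖ * (2 * R ^ 2)) ^ 2 ∂mQ := by
            refine integral_mono (integrable_finsetSum _ fun k _ => int_sq_qR hRpos u k)
              (integrable_const _) fun x => Finset.sum_le_sum fun k _ => ?_
            rw [← sq_abs]
            gcongr
            exact abs_qR_le' hRpos _ k
        _ = _ := by
            rw [integral_const]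
            simp
    obtain ⟨M, hM⟩ := h1
    refine ⟨‖L‖ * (‖G‖ * M), fun u => (L.le_opNorm _).trans ?_⟩
    gcongr
    exact (G.le_opNorm _).trans (by gcongr; exact hM u)
  · intro c u hc
    show L (G (hv Q hRpos (c • u))) = L (G (hv Q hRpos u))
    rw [hv_phase Q hRpos hc]
  · intro u
    set y := hv Q hRpos u with hy
    set b := G y with hbdef
    obtain ⟨hbV, hbeq⟩ := hG y
    refine ⟨fun i x => (pe (PZ (b i)) x).re, fun i j x => (pe (RR i (b j)) x).re,
      fun l => -(cf (y l) 0).re, ?_, h1r, div_ae hbV, ?_, ?_, ?_⟩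
    · filter_upwards [hL b, ae_all_iff.2 fun i => pe_ae (PZ (b i))] with x h1 h2 i
      rw [h1, h2 i]
      rfl
    · rw [ae_all_iff]
      intro l
      have h1 : Rep (y l - cf (y l) 0 • bch 0) fun x => y l x - cf (y l) 0 * 1 := by
        refine rep_sub (EventuallyEq.refl _ _) ?_
        filter_upwards [Lp.coeFn_smul (cf (y l) 0) (bch 0), bch_zero_ae] with x h2 h3
        rw [h2, Pi.smul_apply, h3]
        rfl
      rw [← hbeq l] at h1
      filter_upwards [h1, curv_ae D b l, hv_ae Q hRpos u l] with x h2 h3 h4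
      have h5 : wdA (fun p q => F0 p q + curl (fun i j x => (pe (RR i (b j)) x).re) x p q)
          (triA D l x) = wdA F0 (triA D l x) +
          wdA (curl (fun i j x => (pe (RR i (b j)) x).re) x) (triA D l x) := by
        unfold wdA
        ring
      rw [h5, ← h3]
      have h6 : (Pc D l b x).re = -wdA F0 (triA D l x) -
          1 / 2 * ∑ k, Q.T x l k * qR R (spv u x) k - (cf (y l) 0).re := by
        rw [hbdef, h2, Complex.sub_re, mul_one, hy, h4, Complex.ofReal_re]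
      rw [h6]
      ring
    · intro l
      show |-(cf (y l) 0).re| ≤ _
      rw [abs_neg]
      calc |(cf (y l) 0).re| ≤ ‖cf (y l) 0‖ := Complex.abs_re_le_norm _
        _ ≤ C * (1 + ∑ k, ‖pau k‖) * (1 + ‖u‖ ^ 2) := hmean hRpos u l
        _ ≤ _ := by
            gcongr
            exact le_max_left _ _
    · calc ∫ x, ∑ i, (pe (PZ (b i)) x).re ^ 2 ∂mQ ≤ ‖b‖ ^ 2 := sum_sq_le b
        _ ≤ (‖G‖ * ‖y‖) ^ 2 := by
            gcongr
            exact G.le_opNorm y
        _ = ‖G‖ ^ 2 * ‖y‖ ^ 2 := by ring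
        _ ≤ ‖G‖ ^ 2 * (12 * C ^ 2 * (1 + ∫ x, ∑ k, qR R (spv u x) k ^ 2 ∂mQ)) := by
            gcongr
            exact hsq hRpos u
        _ = ‖G‖ ^ 2 * (12 * C ^ 2) * (1 + ∫ x, ∑ k, qR R (spv u x) k ^ 2 ∂mQ) := by ring
        _ ≤ _ := by
            have : 0 ≤ ∫ x, ∑ k, qR R (spv u x) k ^ 2 ∂mQ :=
              integral_nonneg fun x => Finset.sum_nonneg fun _ _ => sq_nonneg _
            gcongr
            exact le_max_right _ _

end Vale.Agent.P247.H350.E3
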