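import Vale.Agent.P247.H350.E3.Per

/-!
# The Nemytskii operator of the truncated quadratic map
-/

open scoped ContDiff Topology ComplexConjugate NNReal
open Set MeasureTheory Filter Metric

noncomputable section

namespace Vale.Agent.P247.H350.E3

open Vale.Agent.P247.H74 Vale.Agent.P247.H574 Vale.Agent.P247.H647 Vale.Agent.P247.H957
  Vale.Agent.P247.H94 Vale.Agent.P247.H264 Vale.Agent.P247.H931.S1

/-! ### the truncated quadratic map -/

theorem gT_denom (t : ℝ) : 1 ≤ 1 + (t - 1) * Real.smoothTransition (t - 1) := by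
  have h1 := Real.smoothTransition.nonneg (t - 1)
  rcases le_or_gt t 1 with h | h
  · rw [Real.smoothTransition.zero_of_nonpos (by linarith)]
    simp
  · have : 0 ≤ (t - 1) * Real.smoothTransition (t - 1) := mul_nonneg (by linarith) h1
    linarith

theorem gT_pos (t : ℝ) : 0 < gT t := inv_pos.2 (lt_of_lt_of_le one_pos (gT_denom t))

theorem gT_le_one (t : ℝ) : gT t ≤ 1 := inv_le_one_of_one_le₀ (gT_denom t)

theorem mul_gT_le (t : ℝ) : t * gT t ≤ 2 := by
  rcases le_or_gt t 2 with h | h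
  · calc t * gT t ≤ 2 * 1 := mul_le_mul h (gT_le_one t) (gT_pos t).le (by norm_num)
      _ = 2 := mul_one 2
  · have h1 : Real.smoothTransition (t - 1) = 1 := Real.smoothTransition.one_of_one_le (by linarith)
    have h2 : gT t = t⁻¹ := by
      unfold gT
      rw [h1]
      congr 1
      ring
    rw [h2, mul_inv_cancel₀ (by linarith)]
    norm_num

theorem gT_cont : Continuous gT := by
  unfold gT
  refine Continuous.inv₀ ?_ fun t => (lt_of_lt_of_le one_pos (gT_denom t)).ne'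
  have : Continuous Real.smoothTransition := Real.smoothTransition.continuous
  fun_prop

theorem qR_cont (R : ℝ) (k : Fin 3) : Continuous fun s => qR R s k := by
  unfold qR
  refine Continuous.mul (gT_cont.comp (by fun_prop)) ?_
  exact Complex.continuous_re.comp (continuous_id.inner (pau k).continuous)

theorem inner_pau_le (s : Sp) (k : Fin 3) : |(inner ℂ s (pau k s)).re| ≤ ‖pau k‖ * ‖s‖ ^ 2 := by
  calc |(inner ℂ s (pau k s)).re| ≤ ‖inner ℂ s (pau k s)‖ := Complex.abs_re_le_norm _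
    _ ≤ ‖s‖ * ‖pau k s‖ := norm_inner_le_norm _ _
    _ ≤ ‖s‖ * (‖pau k‖ * ‖s‖) := by
        gcongr
        exact (pau k).le_opNorm s
    _ = _ := by ring

theorem abs_qR_le (R : ℝ) (s : Sp) (k : Fin 3) : |qR R s k| ≤ ‖pau k‖ * ‖s‖ ^ 2 := by
  unfold qR
  rw [abs_mul, abs_of_pos (gT_pos _)]
  calc _ ≤ 1 * (‖pau k‖ * ‖s‖ ^ 2) := by
        gcongr
        · exact gT_le_one _
        · exact inner_pau_le s k
    _ = _ := one_mul _

theorem abs_qR_le' {R : ℝ} (hR : 0 < R) (s : Sp) (k : Fin 3) :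
    |qR R s k| ≤ ‖pau k‖ * (2 * R ^ 2) := by
  unfold qR
  rw [abs_mul, abs_of_pos (gT_pos _)]
  have h1 := mul_gT_le (‖s‖ ^ 2 / R ^ 2)
  have h2 : ‖s‖ ^ 2 * gT (‖s‖ ^ 2 / R ^ 2) ≤ 2 * R ^ 2 := by
    have h3 : ‖s‖ ^ 2 * gT (‖s‖ ^ 2 / R ^ 2) = R ^ 2 * (‖s‖ ^ 2 / R ^ 2 * gT (‖s‖ ^ 2 / R ^ 2)) := by
      field_simp
    rw [h3]
    nlinarith [sq_nonneg R]
  calc gT (‖s‖ ^ 2 / R ^ 2) * |(inner ℂ s (pau k s)).re|
      ≤ gT (‖s‖ ^ 2 / R ^ 2) * (‖pau k‖ * ‖s‖ ^ 2) := by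
        gcongr
        · exact (gT_pos _).le
        · exact inner_pau_le s k
    _ = ‖pau k‖ * (‖s‖ ^ 2 * gT (‖s‖ ^ 2 / R ^ 2)) := by ring
    _ ≤ _ := by gcongr

theorem qR_phase (R : ℝ) (c : ℂ) (hc : ‖c‖ = 1) (s : Sp) (k : Fin 3) : qR R (c • s) k = qR R s k := by
  unfold qR
  have h1 : inner ℂ (c • s) (pau k (c • s)) = inner ℂ s (pau k s) := by
    rw [map_smul, inner_smul_left, inner_smul_right, ← mul_assoc, Complex.conj_mul', hc]
    simp
  rw [h1, norm_smul, hc, one_mul]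

/-! ### superposition operators -/

instance : IsProbabilityMeasure mQ := ⟨by
  rw [Measure.restrict_apply_univ, Real.volume_Icc_pi]
  simp⟩

theorem spv_sm (u : Fin 2 → H) : StronglyMeasurable (spv u) := by
  have h1 : Continuous fun p : ℂ × ℂ => (WithLp.toLp 2 ![p.1, p.2] : Sp) := by
    refine (PiLp.continuous_toLp 2 _).comp (continuous_pi fun i => ?_)
    fin_cases i
    · exact continuous_fst
    · exact continuous_snd
  exact h1.comp_stronglyMeasurable
    ((Lp.stronglyMeasurable (u 0)).prodMk (Lp.stronglyMeasurable (u 1)))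

theorem memLp_nem {f : Sp → ℂ} (hf : Continuous f) {M : ℝ} (hM : ∀ s, ‖f s‖ ≤ M)
    (u : Fin 2 → H) : MemLp (fun x => f (spv u x)) 2 mQ :=
  MemLp.of_bound (hf.comp_stronglyMeasurable (spv_sm u)).aestronglyMeasurable M
    (Eventually.of_forall fun _ => hM _)

/-- the superposition operator -/
def nem {f : Sp → ℂ} (hf : Continuous f) {M : ℝ} (hM : ∀ s, ‖f s‖ ≤ M) (u : HH) : H :=
  (memLp_nem hf hM u).toLp _

theorem nem_ae {f : Sp → ℂ} (hf : Continuous f) {M : ℝ} (hM : ∀ s, ‖f s‖ ≤ M) (u : HH) :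
    nem hf hM u =ᵐ[mQ] fun x => f (spv u x) := (memLp_nem hf hM u).coeFn_toLp

theorem nem_cont {f : Sp → ℂ} (hf : Continuous f) {M : ℝ} (hM : ∀ s, ‖f s‖ ≤ M) :
    Continuous (nem hf hM) := by
  rw [continuous_iff_seqContinuous]
  intro u u₀ hu
  refine tendsto_of_subseq_tendsto fun ns hns => ?_
  have h0 : Tendsto (fun n => u (ns n) 0) atTop (𝓝 (u₀ 0)) :=
    (((PiLp.continuous_apply 2 _ 0).tendsto u₀).comp hu).comp hns
  have h1 : Tendsto (fun n => u (ns n) 1) atTop (𝓝 (u₀ 1)) :=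
    (((PiLp.continuous_apply 2 _ 1).tendsto u₀).comp hu).comp hns
  obtain ⟨ms, hms, hae⟩ := (tendstoInMeasure_of_tendsto_Lp h0).exists_seq_tendsto_ae
  obtain ⟨ls, hls, hae'⟩ := (tendstoInMeasure_of_tendsto_Lp
    (h1.comp hms.tendsto_atTop)).exists_seq_tendsto_ae
  refine ⟨fun n => ms (ls n), ?_⟩
  rw [tendsto_iff_edist_tendsto_0]
  set v : ℕ → HH := fun n => u (ns (ms (ls n))) with hv
  have hlim : ∀ᵐ x ∂mQ, Tendsto (fun n => f (spv (v n) x)) atTop (𝓝 (f (spv u₀ x))) := by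
    filter_upwards [hae, hae'] with x hx hx'
    refine (hf.tendsto _).comp ?_
    have h1 : Continuous fun p : ℂ × ℂ => (WithLp.toLp 2 ![p.1, p.2] : Sp) := by
      refine (PiLp.continuous_toLp 2 _).comp (continuous_pi fun i => ?_)
      fin_cases i
      · exact continuous_fst
      · exact continuous_snd
    exact (h1.tendsto (u₀ 0 x, u₀ 1 x)).comp ((hx.comp hls.tendsto_atTop).prodMk_nhds hx')
  have hD : Tendsto (fun n => ∫⁻ x, ‖f (spv (v n) x) - f (spv u₀ x)‖ₑ ^ 2 ∂mQ) atTop (𝓝 0) := by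
    have h2 := tendsto_lintegral_of_dominated_convergence' (μ := mQ)
      (F := fun n x => ‖f (spv (v n) x) - f (spv u₀ x)‖ₑ ^ 2) (f := fun _ => 0)
      (fun _ => ENNReal.ofReal ((2 * M) ^ 2)) ?_ ?_ ?_ ?_
    · simpa using h2
    · intro n
      exact (((hf.comp_stronglyMeasurable (spv_sm _)).sub
        (hf.comp_stronglyMeasurable (spv_sm _))).aestronglyMeasurable.enorm).pow_const 2
    · intro n
      refine Eventually.of_forall fun x => ?_
      show ‖f (spv (v n) x) - f (spv u₀ x)‖ₑ ^ 2 ≤ ENNReal.ofReal ((2 * M) ^ 2)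
      rw [enorm_sq]
      refine ENNReal.ofReal_le_ofReal ?_
      have h3 : ‖f (spv (v n) x) - f (spv u₀ x)‖ ≤ 2 * M := by
        refine (norm_sub_le _ _).trans ?_
        linarith [hM (spv (v n) x), hM (spv u₀ x)]
      gcongr
    · rw [lintegral_const]
      simp
    · filter_upwards [hlim] with x hx
      have h3 : Tendsto (fun n => f (spv (v n) x) - f (spv u₀ x)) atTop (𝓝 0) := by
        have := hx.sub_const (f (spv u₀ x))
        rwa [sub_self] at this
      have h4 : Tendsto (fun n => ‖f (spv (v n) x) - f (spv u₀ x)‖ₑ) atTop (𝓝 ‖(0 : ℂ)‖ₑ) :=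
        (continuous_enorm.tendsto _).comp h3
      have h5 := ENNReal.Tendsto.pow (n := 2) h4
      simpa using h5
  have hE : ∀ n, edist (nem hf hM (v n)) (nem hf hM u₀) ^ 2 =
      ∫⁻ x, ‖f (spv (v n) x) - f (spv u₀ x)‖ₑ ^ 2 ∂mQ := by
    intro n
    rw [edist_eq_enorm_sub]
    refine (lint_rep ?_).symm
    show (nem hf hM (v n) - nem hf hM u₀ : H) =ᵐ[mQ] _
    filter_upwards [nem_ae hf hM (v n), nem_ae hf hM u₀,
      Lp.coeFn_sub (nem hf hM (v n)) (nem hf hM u₀)] with x h3 h4 h5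
    rw [h5, Pi.sub_apply, h3, h4]
  have h6 : Tendsto (fun n => edist (nem hf hM (v n)) (nem hf hM u₀) ^ 2) atTop (𝓝 0) := by
    simpa only [hE] using hD
  rw [ENNReal.tendsto_nhds_zero] at h6 ⊢
  intro ε hε
  filter_upwards [h6 (ε ^ 2) (by positivity)] with n hn
  exact (ENNReal.pow_le_pow_left_iff two_ne_zero).1 hn

theorem spv_smul_ae (c : ℂ) (u : HH) : ∀ᵐ x ∂mQ, spv (c • u : HH) x = c • spv u x := by
  filter_upwards [Lp.coeFn_smul c (u 0), Lp.coeFn_smul c (u 1)] with x h0 h1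
  have e0 : (c • u : HH) 0 x = c • u 0 x := h0
  have e1 : (c • u : HH) 1 x = c • u 1 x := h1
  ext i
  fin_cases i
  · exact e0
  · exact e1

theorem nem_phase {f : Sp → ℂ} (hf : Continuous f) {M : ℝ} (hM : ∀ s, ‖f s‖ ≤ M) {c : ℂ}
    (h : ∀ s, f (c • s) = f s) (u : HH) : nem hf hM (c • u) = nem hf hM u := by
  refine Lp.ext ?_
  filter_upwards [nem_ae hf hM (c • u), nem_ae hf hM u, spv_smul_ae c u] with x h1 h2 h3
  rw [h1, h2, h3, h]

theorem norm_nem_le {f : Sp → ℂ} (hf : Continuous f) {M : ℝ} (hM : ∀ s, ‖f s‖ ≤ M) (u : HH) :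
    ‖nem hf hM u‖ ≤ M := by
  have hM0 : 0 ≤ M := (norm_nonneg _).trans (hM 0)
  have h := Lp.norm_le_of_ae_bound (f := nem hf hM u) (μ := mQ) (p := 2) hM0 (by
    filter_upwards [nem_ae hf hM u] with x hx
    rw [hx]
    exact hM _)
  have h1 : measureUnivNNReal mQ = 1 := by
    unfold measureUnivNNReal
    rw [measure_univ]
    rfl
  rw [h1] at h
  simpa using h

theorem lint_spv (u : HH) : ∫⁻ x, ‖spv u x‖ₑ ^ 2 ∂mQ = ‖u‖ₑ ^ 2 := by
  have h1 : ∀ x, ‖spv u x‖ₑ ^ 2 = ‖u 0 x‖ₑ ^ 2 + ‖u 1 x‖ₑ ^ 2 := by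
    intro x
    rw [enorm_sq, enorm_sq, enorm_sq, ← ENNReal.ofReal_add (by positivity) (by positivity)]
    congr 1
    rw [EuclideanSpace.norm_sq_eq]
    simp [spv]
  simp only [h1]
  rw [lintegral_add_left]
  · rw [lint_rep (v := u 0) (EventuallyEq.refl _ _), lint_rep (v := u 1) (EventuallyEq.refl _ _),
      enorm_sq, enorm_sq, enorm_sq, ← ENNReal.ofReal_add (by positivity) (by positivity)]
    congr 1
    rw [PiLp.norm_sq_eq_of_L2, Fin.sum_univ_two]
  · exact (Lp.stronglyMeasurable (u 0)).enorm.pow_const 2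

end Vale.Agent.P247.H350.E3
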