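import Vale.Agent.P247.H350.E3.Apx

/-!
# Periodic extensions and weak derivatives
-/

open scoped ContDiff Topology ComplexConjugate NNReal
open Set MeasureTheory Filter Metric

noncomputable section

namespace Vale.Agent.P247.H350.E3

open Vale.Agent.P247.H74 Vale.Agent.P247.H574 Vale.Agent.P247.H647 Vale.Agent.P247.H957
  Vale.Agent.P247.H94 Vale.Agent.P247.H264 Vale.Agent.P247.H931.S1

/-- the periodic extension -/
def pe (w : H) (x : R4) : ℂ := w fun i => Int.fract (x i)

theorem pe_sm (w : H) : StronglyMeasurable (pe w) := by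
  refine (Lp.stronglyMeasurable w).comp_measurable ?_
  exact measurable_pi_iff.2 fun i => measurable_fract.comp (measurable_pi_apply i)

theorem pe_per (w : H) (k : Fin 4 → ℤ) (x : R4) : pe w (tr k x) = pe w x := by
  unfold pe tr
  congr 1
  funext i
  exact Int.fract_add_intCast _ _

theorem pe_ae (w : H) : pe w =ᵐ[mQ] w := by
  have h1 : (univ.pi fun i => Ico ((0 : R4) i) ((1 : R4) i)) =ᵐ[volume] Icc (0 : R4) 1 :=
    Measure.univ_pi_Ico_ae_eq_Icc
  rw [EventuallyEq, ae_restrict_iff' measurableSet_Icc]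
  filter_upwards [h1.mem_iff] with x hx' hIcc
  have hx := hx'.2 hIcc
  unfold pe
  have : (fun i => Int.fract (x i)) = x := by
    funext i
    have h4 := hx i (mem_univ i)
    exact Int.fract_eq_self.2 ⟨h4.1, h4.2⟩
  rw [this]

/-! ### covering -/

/-- lattice vectors whose cubes cover the ball of radius `N` -/
def KN (N : ℕ) : Finset (Fin 4 → ℤ) := Fintype.piFinset fun _ => Finset.Icc (-N) N

theorem cover_KN (N : ℕ) : closedBall (0 : R4) N ⊆ ⋃ k ∈ KN N, tr k '' Icc (0 : R4) 1 := by
  intro x hx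
  have hx' : ∀ i, |x i| ≤ N := by
    intro i
    have h1 := norm_le_pi_norm x i
    rw [mem_closedBall_zero_iff] at hx
    rw [Real.norm_eq_abs] at h1
    linarith
  simp only [mem_iUnion]
  refine ⟨fun i => ⌊x i⌋, ?_, fun i => x i - ⌊x i⌋, ⟨?_, ?_⟩, ?_⟩
  · rw [KN, Fintype.mem_piFinset]
    intro i
    have h := abs_le.1 (hx' i)
    rw [Finset.mem_Icc]
    constructor
    · rw [Int.le_floor]; push_cast; linarith
    · have : (⌊x i⌋ : ℝ) ≤ N := (Int.floor_le _).trans h.2
      exact_mod_cast this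
  · intro i
    have := Int.floor_le (x i)
    simp only [Pi.zero_apply]
    linarith
  · intro i
    have := Int.lt_floor_add_one (x i)
    simp only [Pi.one_apply]
    linarith
  · funext i
    simp [tr]

theorem lint_ball (N : ℕ) {g : R4 → ENNReal} (hg : ∀ (k : Fin 4 → ℤ) x, g (tr k x) = g x) :
    ∫⁻ x in closedBall (0 : R4) N, g x ≤ ((KN N).card : ENNReal) * ∫⁻ x, g x ∂mQ := by
  calc ∫⁻ x in closedBall (0 : R4) N, g x
      ≤ ∫⁻ x in ⋃ k ∈ KN N, tr k '' Icc (0 : R4) 1, g x := lintegral_mono_set (cover_KN N)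
    _ ≤ ∑ k ∈ KN N, ∫⁻ x in tr k '' Icc (0 : R4) 1, g x := by
        have h1 : (⋃ k ∈ KN N, tr k '' Icc (0 : R4) 1) =
            ⋃ k : KN N, tr (k : Fin 4 → ℤ) '' Icc (0 : R4) 1 := by
          rw [iUnion_subtype]
        rw [h1]
        refine (lintegral_iUnion_le _ _).trans ?_
        rw [tsum_fintype, ← Finset.sum_coe_sort (KN N) (fun k => ∫⁻ x in tr k '' Icc (0 : R4) 1, g x)]
    _ = ∑ k ∈ KN N, ∫⁻ x, g x ∂mQ := by
        refine Finset.sum_congr rfl fun k _ => ?_
        rw [setLIntegral_tr]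
        simp only [hg]
    _ = ((KN N).card : ENNReal) * ∫⁻ x, g x ∂mQ := by
        rw [Finset.sum_const, nsmul_eq_mul]

/-- a periodic property which holds almost everywhere on the cube holds almost everywhere -/
theorem ae_of_per {p : R4 → Prop} (hp : ∀ (k : Fin 4 → ℤ) x, p (tr k x) ↔ p x)
    (h : ∀ᵐ x ∂mQ, p x) : ∀ᵐ x, p x := by
  rw [ae_iff] at h ⊢
  set s : Set R4 := {x | ¬ p x} with hs
  -- cover by countably many cubes
  have h0 : volume (s ∩ Icc (0 : R4) 1) = 0 := by
    have := Measure.le_restrict_apply (μ := (volume : Measure R4)) (Icc (0 : R4) 1) s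
    exact le_antisymm (this.trans (le_of_eq h)) (zero_le)
  have h1 : s ⊆ ⋃ k : Fin 4 → ℤ, tr k '' (s ∩ Icc (0 : R4) 1) := by
    intro x hx
    rw [mem_iUnion]
    refine ⟨fun i => ⌊x i⌋, fun i => x i - ⌊x i⌋, ⟨?_, ?_, ?_⟩, ?_⟩
    · show ¬ p _
      intro hp'
      apply hx
      have := (hp (fun i => ⌊x i⌋) (fun i => x i - ⌊x i⌋)).2 hp'
      have e1 : tr (fun i => ⌊x i⌋) (fun i => x i - ⌊x i⌋) = x := by
        funext i
        simp [tr]
      rwa [e1] at this
    · intro i
      have := Int.floor_le (x i)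
      simp only [Pi.zero_apply]
      linarith
    · intro i
      have := Int.lt_floor_add_one (x i)
      simp only [Pi.one_apply]
      linarith
    · funext i
      simp [tr]
  refine measure_mono_null h1 (measure_iUnion_null fun k => ?_)
  have h2 : tr k '' (s ∩ Icc (0 : R4) 1) = (fun x => (fun i => (k i : ℝ)) + x) '' (s ∩ Icc (0 : R4) 1) := by
    rw [tr_eq_add]
    congr 1
    funext x
    abel
  rw [h2, image_add_left, measure_preimage_add]
  exact h0

/-! ### local integrability -/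

theorem eLp_ball (N : ℕ) {f : R4 → ℂ} (hp : ∀ (k : Fin 4 → ℤ) x, f (tr k x) = f x) :
    eLpNorm f 2 (volume.restrict (closedBall (0 : R4) N)) ^ 2 ≤
      ((KN N).card : ENNReal) * ∫⁻ x, ‖f x‖ₑ ^ 2 ∂mQ := by
  have h1 := eLpNorm_nnreal_pow_eq_lintegral (f := f)
    (μ := (volume : Measure R4).restrict (closedBall (0 : R4) N)) (p := 2) two_ne_zero
  have h2 : eLpNorm f 2 (volume.restrict (closedBall (0 : R4) N)) ^ 2 =
      ∫⁻ x in closedBall (0 : R4) N, ‖f x‖ₑ ^ 2 := by simpa using h1
  rw [h2]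
  exact lint_ball N fun k x => by simp only [hp]

theorem subset_ball {K : Set R4} (hK : IsCompact K) : ∃ N : ℕ, K ⊆ closedBall (0 : R4) N := by
  obtain ⟨r, hr⟩ := hK.isBounded.subset_closedBall (0 : R4)
  obtain ⟨N, hN⟩ := exists_nat_ge r
  exact ⟨N, hr.trans (closedBall_subset_closedBall hN)⟩

theorem pe_loc (w : H) : LocL2 (pe w) := by
  intro K hK
  obtain ⟨N, hN⟩ := subset_ball hK
  refine MemLp.mono_measure (Measure.restrict_mono hN le_rfl) ⟨(pe_sm w).aestronglyMeasurable, ?_⟩
  have h1 := eLp_ball N (pe_per w)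
  rw [lint_rep (pe_ae w).symm] at h1
  have h2 : eLpNorm (pe w) 2 (volume.restrict (closedBall (0 : R4) N)) ^ 2 < ⊤ := by
    refine h1.trans_lt ?_
    exact ENNReal.mul_lt_top (ENNReal.natCast_lt_top _) (ENNReal.pow_lt_top enorm_lt_top)
  by_contra hcon
  rw [not_lt, top_le_iff] at hcon
  rw [hcon] at h2
  simp at h2

theorem int_test {f : R4 → ℂ} (hf : LocL2 f) {θ : R4 → ℝ} (hθ : Continuous θ)
    (hc : HasCompactSupport θ) : Integrable fun x => θ x • f x := by
  have h1 : Integrable f (volume.restrict (tsupport θ)) := by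
    have : IsFiniteMeasure ((volume : Measure R4).restrict (tsupport θ)) := ⟨by
      rw [Measure.restrict_apply_univ]
      exact hc.isCompact.measure_lt_top⟩
    exact (hf _ hc.isCompact).integrable one_le_two
  obtain ⟨C, hC⟩ := hθ.bounded_above_of_compact_support hc
  have h2 : Integrable (fun x => θ x • f x) (volume.restrict (tsupport θ)) :=
    h1.bdd_smul C hθ.aestronglyMeasurable (Eventually.of_forall hC)
  have h3 := (integrableOn_iff_integrable_of_support_subset (s := tsupport θ)
    (f := fun x => θ x • f x) (μ := (volume : Measure R4)) ?_).1 h2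
  · exact h3
  · intro x hx
    apply subset_tsupport
    intro h0
    apply hx
    simp [h0]

/-- the limit of the test integrals -/
theorem test_bound (θ : R4 → ℝ) (hθ : Continuous θ) (hc : HasCompactSupport θ) : ∃ C : ℝ≥0,
    ∀ (w : H) (p : R4 → ℂ) (hp : Continuous p), (∀ (k : Fin 4 → ℤ) x, p (tr k x) = p x) →
      ‖(∫ x, θ x • pe w x) - ∫ x, θ x • p x‖ₑ ≤ C * ‖w - tl p hp‖ₑ := by
  obtain ⟨C, hC⟩ := hθ.bounded_above_of_compact_support hc
  obtain ⟨N, hN⟩ := subset_ball hc.isCompact
  have hC0 : 0 ≤ C := (norm_nonneg _).trans (hC 0)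
  have : IsProbabilityMeasure mQ := ⟨by
    rw [Measure.restrict_apply_univ, Real.volume_Icc_pi]
    simp⟩
  refine ⟨Real.toNNReal C * (KN N).card, fun w p hp hper => ?_⟩
  have hpl : LocL2 p := fun K hK => by
    obtain ⟨M, hM⟩ := hK.exists_bound_of_continuousOn hp.continuousOn
    have : IsFiniteMeasure ((volume : Measure R4).restrict K) := ⟨by
      rw [Measure.restrict_apply_univ]
      exact hK.measure_lt_top⟩
    refine MemLp.of_bound hp.aestronglyMeasurable M ?_
    rw [ae_restrict_iff' hK.measurableSet]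
    exact Eventually.of_forall hM
  rw [← integral_sub (int_test (pe_loc w) hθ hc) (int_test hpl hθ hc)]
  refine (enorm_integral_le_lintegral_enorm _).trans ?_
  set g : R4 → ENNReal := fun x => ‖pe w x - p x‖ₑ with hg
  have h1 : ∫⁻ x, ‖θ x • pe w x - θ x • p x‖ₑ ≤
      ∫⁻ x in closedBall (0 : R4) N, ENNReal.ofReal C * g x := by
    rw [← lintegral_indicator measurableSet_closedBall]
    refine lintegral_mono fun x => ?_
    by_cases hx : x ∈ closedBall (0 : R4) N
    · rw [indicator_of_mem hx, ← smul_sub, enorm_smul]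
      gcongr
      rw [← ofReal_norm]
      exact ENNReal.ofReal_le_ofReal (hC x)
    · have h2 : θ x = 0 := by
        by_contra h3
        exact hx (hN (subset_tsupport _ h3))
      rw [h2]
      simp
  refine h1.trans ?_
  rw [lintegral_const_mul' _ _ ENNReal.ofReal_ne_top]
  have h2 : ∫⁻ x in closedBall (0 : R4) N, g x ≤ ((KN N).card : ENNReal) * ∫⁻ x, g x ∂mQ :=
    lint_ball N fun k x => by simp only [hg, pe_per, hper]
  have h3 : ∫⁻ x, g x ∂mQ ≤ ‖w - tl p hp‖ₑ := by
    have h4 : ∫⁻ x, g x ∂mQ = eLpNorm (w - tl p hp : H) 1 mQ := by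
      rw [eLpNorm_one_eq_lintegral_enorm]
      refine lintegral_congr_ae ?_
      filter_upwards [pe_ae w, tl_ae p hp, Lp.coeFn_sub w (tl p hp)] with x h5 h6 h7
      simp only [hg]
      rw [h5, h7, Pi.sub_apply, h6]
    rw [h4, Lp.enorm_def]
    exact eLpNorm_le_eLpNorm_of_exponent_le one_le_two (Lp.aestronglyMeasurable _)
  calc ENNReal.ofReal C * ∫⁻ x in closedBall (0 : R4) N, g x
      ≤ ENNReal.ofReal C * (((KN N).card : ENNReal) * ‖w - tl p hp‖ₑ) := by
        gcongr
        exact h2.trans (by gcongr)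
    _ = ((Real.toNNReal C * (KN N).card : ℝ≥0) : ENNReal) * ‖w - tl p hp‖ₑ := by
        rw [← mul_assoc]
        push_cast
        rfl

theorem tendsto_test (θ : R4 → ℝ) (hθ : Continuous θ) (hc : HasCompactSupport θ) (w : H) :
    Tendsto (fun S => ∫ x, θ x • pS S w x) atTop (𝓝 (∫ x, θ x • pe w x)) := by
  obtain ⟨C, hC⟩ := test_bound θ hθ hc
  rw [tendsto_iff_edist_tendsto_0]
  have h1 : Tendsto (fun S => (C : ENNReal) * ‖w - tl (pS S w) (pS_cont S w)‖ₑ) atTop (𝓝 0) := by
    have h2 : Tendsto (fun S => ‖w - tl (pS S w) (pS_cont S w)‖ₑ) atTop (𝓝 0) := by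
      have h3 := (tendsto_const_nhds (x := w)).sub (tendsto_pS w)
      rw [sub_self] at h3
      have h4 : Tendsto (fun S => ‖w - tl (pS S w) (pS_cont S w)‖ₑ) atTop (𝓝 ‖(0 : H)‖ₑ) :=
        (continuous_enorm.tendsto (0 : H)).comp h3
      rwa [enorm_zero] at h4
    have h5 := ENNReal.Tendsto.const_mul h2 (Or.inr (ENNReal.coe_ne_top (r := C)))
    rwa [mul_zero] at h5
  refine tendsto_of_tendsto_of_tendsto_of_le_of_le tendsto_const_nhds h1 (fun S => zero_le) ?_
  intro S
  simp only
  rw [edist_comm, edist_eq_enorm_sub]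
  exact hC w _ (pS_cont S w) (pS_per S w)

theorem wkd_pe {w F : H} {i : Fin 4} (h : PD w F i) : WkD (pe w) (pe F) i := by
  intro η hη hc
  have hd : Continuous fun x => fderiv ℝ η x (e i) :=
    (hη.continuous_fderiv (by simp)).clm_apply continuous_const
  have hdc : HasCompactSupport fun x => fderiv ℝ η x (e i) := hc.fderiv_apply (𝕜 := ℝ) (e i)
  have h1 := tendsto_test _ hd hdc w
  have h2 := tendsto_test η hη.continuous hc F
  refine tendsto_nhds_unique h1 (h2.neg.congr fun S => ?_)
  have hp := pS_smooth S w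
  have hlp : ∀ {θ : R4 → ℝ} {p : R4 → ℂ}, Continuous θ → HasCompactSupport θ → Continuous p →
      Integrable fun x => θ x • p x := fun {θ p} h1 h2 h3 =>
    (h1.smul h3).integrable_of_hasCompactSupport h2.smul_right
  have h3 := integral_smul_fderiv_eq_neg_fderiv_smul_of_integrable (μ := (volume : Measure R4))
    (f := η) (g := pS S w) (v := e i) (hlp hd hdc hp.continuous) ?_
    (hlp hη.continuous hc hp.continuous) (fun x _ => hη.differentiable (by simp) x)
    (fun x _ => hp.differentiable (by simp) x)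
  · simp only [fderiv_pS h] at h3
    rw [h3]
    simp
  · simp only [fderiv_pS h]
    exact hlp hη.continuous hc (pS_cont S F)

end Vale.Agent.P247.H350.E3
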