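import Vale.Agent.P247.H350.E3.Pot
import Vale.Agent.P247.H350.Red2

/-!
# The operator `b ↦ w4 (da, tri l)`: closed range, right inverse
-/

open scoped ContDiff Topology ComplexConjugate
open Set MeasureTheory Filter Metric

noncomputable section

namespace Vale.Agent.P247.H350.E3

open Vale.Agent.P247.H74 Vale.Agent.P247.H574 Vale.Agent.P247.H647 Vale.Agent.P247.H957
  Vale.Agent.P247.H94

theorem cont_val (a : CForm) (u v : R4) : Continuous fun x => a.val x u v := by
  unfold CForm.val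
  have h1 : Continuous (fderiv ℝ a.lam) := a.lam_smooth.continuous_fderiv (by simp)
  exact (continuous_const.add ((h1.clm_apply continuous_const).clm_apply continuous_const)).sub
    ((h1.clm_apply continuous_const).clm_apply continuous_const)

theorem cont_tc (D : Data) (l : Fin 3) (i j : Fin 4) : Continuous (tc D l i j) :=
  FF.cont_ofReal (cont_val _ _ _)

/-! ### multiplication by real functions -/

theorem inner_mulOp {f : R4 → ℂ} (hf : Continuous f) (hr : ∀ x, conj (f x) = f x) (v w : H) :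
    inner ℂ v (mulOp f w) = inner ℂ (mulOp f v) w := by
  rw [L2.inner_def, L2.inner_def]
  refine integral_congr_ae ?_
  filter_upwards [mulOp_ae hf v, mulOp_ae hf w] with x h1 h2
  rw [h1, h2, RCLike.inner_apply, RCLike.inner_apply, map_mul, hr]
  ring

theorem tc_real (D : Data) (l : Fin 3) (i j : Fin 4) (x : R4) :
    conj (tc D l i j x) = tc D l i j x := Complex.conj_ofReal _

theorem tc_anti (D : Data) (l : Fin 3) (i j : Fin 4) (x : R4) :
    tc D l j i x = - tc D l i j x := by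
  unfold tc
  have h : (tri D l).val x (e j) (e i) = - (tri D l).val x (e i) (e j) := by
    unfold CForm.val
    have h1 := (tri D l).κ_self (e i + e j)
    simp only [map_add, add_apply, (tri D l).κ_self] at h1
    linarith
  rw [h]
  push_cast
  rfl

theorem mulOp_neg {f g : R4 → ℂ} (hf : Continuous f) (hg : Continuous g) (h : ∀ x, g x = - f x)
    (w : H) : mulOp g w = - mulOp f w := by
  refine Lp.ext ?_
  filter_upwards [mulOp_ae hf w, mulOp_ae hg w, Lp.coeFn_neg (mulOp f w)] with x h1 h2 h3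
  rw [h2, h3, Pi.neg_apply, h1, h]
  ring

/-- the components of `b ↦ w4 (da, tri l)` -/
def Pc (D : Data) (l : Fin 3) : X4 →L[ℂ] H :=
  mulOp (tc D l 2 3) ∘L cu 0 1 - mulOp (tc D l 1 3) ∘L cu 0 2 + mulOp (tc D l 1 2) ∘L cu 0 3
    + mulOp (tc D l 0 3) ∘L cu 1 2 - mulOp (tc D l 0 2) ∘L cu 1 3 + mulOp (tc D l 0 1) ∘L cu 2 3

theorem Pc_eq (D : Data) (l : Fin 3) (b : X4) : Pc D l b = PP D (fun i j => cu i j b) l := rfl

/-- the operator `b ↦ w4 (da, tri)` -/
def Pf (D : Data) : X4 →L[ℂ] Y3 :=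
  ((PiLp.continuousLinearEquiv 2 ℂ (fun _ : Fin 3 => H)).symm : (Fin 3 → H) →L[ℂ] Y3) ∘L
    ContinuousLinearMap.pi (Pc D)

theorem Pf_apply (D : Data) (b : X4) (l : Fin 3) : Pf D b l = Pc D l b := rfl

theorem Pf_bound (hC : COER_statement) (D : Data) (Q : Quat D) : ∃ d > 0, ∀ b : V,
    d * ‖b‖ ≤ ‖(Pf D ∘L V.subtypeL) b‖ := by
  obtain ⟨C, hC, h⟩ := hC D Q
  refine ⟨√(2 / C), by positivity, fun b => ?_⟩
  have h1 := h (fun i j => cu i j b) (anti_cu b) (clo_cu b) (fun i j => cf_cu_zero b i j)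
  rw [norm_cu b.2] at h1
  have h2 : ‖Pf D b‖ ^ 2 = ∑ l, ‖PP D (fun i j => cu i j (b : X4)) l‖ ^ 2 := by
    rw [PiLp.norm_sq_eq_of_L2]
    rfl
  rw [← h2] at h1
  refine le_of_sq_le_sq ?_ (norm_nonneg _)
  rw [mul_pow, Real.sq_sqrt (by positivity)]
  show 2 / C * ‖(b : X4)‖ ^ 2 ≤ ‖Pf D b‖ ^ 2
  rw [div_mul_eq_mul_div, div_le_iff₀ hC]
  linarith

/-- the form `∑ y_l tri_l` -/
def bet (D : Data) (y : Fin 3 → H) (i j : Fin 4) : H := ∑ l, mulOp (tc D l i j) (y l)

theorem anti_bet (D : Data) (y : Fin 3 → H) : Anti (bet D y) := by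
  intro i j
  unfold bet
  rw [← Finset.sum_neg_distrib]
  exact Finset.sum_congr rfl fun l _ =>
    mulOp_neg (cont_tc D l i j) (cont_tc D l j i) (tc_anti D l i j) _

theorem inner_Pf (D : Data) (y : Y3) (b : X4) : inner ℂ y (Pf D b) =
    inner ℂ (bet D y 2 3) (cu 0 1 b) - inner ℂ (bet D y 1 3) (cu 0 2 b) +
    inner ℂ (bet D y 1 2) (cu 0 3 b) + inner ℂ (bet D y 0 3) (cu 1 2 b) -
    inner ℂ (bet D y 0 2) (cu 1 3 b) + inner ℂ (bet D y 0 1) (cu 2 3 b) := by
  rw [PiLp.inner_apply]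
  have h1 : ∀ l, inner ℂ (y l) (Pf D b l) =
      inner ℂ (mulOp (tc D l 2 3) (y l)) (cu 0 1 b) - inner ℂ (mulOp (tc D l 1 3) (y l)) (cu 0 2 b) +
      inner ℂ (mulOp (tc D l 1 2) (y l)) (cu 0 3 b) + inner ℂ (mulOp (tc D l 0 3) (y l)) (cu 1 2 b) -
      inner ℂ (mulOp (tc D l 0 2) (y l)) (cu 1 3 b) + inner ℂ (mulOp (tc D l 0 1) (y l)) (cu 2 3 b) := by
    intro l
    have h2 : ∀ i j : Fin 4, ∀ w : H, inner ℂ (mulOp (tc D l i j) (y l)) w =
        inner ℂ (y l) (mulOp (tc D l i j) w) := fun i j w =>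
      (inner_mulOp (cont_tc D l i j) (tc_real D l i j) _ _).symm
    simp only [h2]
    rw [Pf_apply, Pc_eq]
    unfold PP
    simp only [inner_add_right, inner_sub_right]
  simp only [h1, bet, sum_inner, Finset.sum_add_distrib, Finset.sum_sub_distrib]

theorem cyc_of_four (n : Fin 4 → ℂ) (g : Fin 4 → Fin 4 → ℂ) (hg : ∀ i j, g j i = - g i j)
    (h0 : n 1 * g 2 3 - n 2 * g 1 3 + n 3 * g 1 2 = 0)
    (h1 : n 0 * g 2 3 - n 2 * g 0 3 + n 3 * g 0 2 = 0)
    (h2 : n 0 * g 1 3 - n 1 * g 0 3 + n 3 * g 0 1 = 0)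
    (h3 : n 0 * g 1 2 - n 1 * g 0 2 + n 2 * g 0 1 = 0) (i j l : Fin 4) :
    n i * g j l + n j * g l i + n l * g i j = 0 := by
  have d : ∀ i, g i i = 0 := fun i => by
    have := hg i i
    have h2 : (2 : ℂ) * g i i = 0 := by linear_combination this
    simpa using h2
  have a1 := hg 0 1
  have a2 := hg 0 2
  have a3 := hg 0 3
  have a4 := hg 1 2
  have a5 := hg 1 3
  have a6 := hg 2 3
  have d0 := d 0
  have d1 := d 1
  have d2 := d 2
  have d3 := d 3
  fin_cases i <;> fin_cases j <;> fin_cases l <;>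
  simp only [Fin.zero_eta, Fin.mk_one, Fin.reduceFinMk, a1, a2, a3, a4, a5, a6, d0, d1, d2, d3] <;>
  first
  | ring1
  | linear_combination h0
  | linear_combination -h0
  | linear_combination h1
  | linear_combination -h1
  | linear_combination h2
  | linear_combination -h2
  | linear_combination h3
  | linear_combination -h3

/-- test fields -/
def tf (n : Z4) (u : Fin 4 → ℂ) : X4 := WithLp.toLp 2 fun j => u j • bch n

theorem tf_apply (n : Z4) (u : Fin 4 → ℂ) (j : Fin 4) : tf n u j = u j • bch n := rfl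

theorem tf_mem {n : Z4} (hn : n ≠ 0) {u : Fin 4 → ℂ} (h : ∑ j, (n j : ℂ) * u j = 0) :
    tf n u ∈ V := by
  refine ⟨fun k => ?_, fun j => ?_⟩
  · simp only [tf_apply, cf_smul, cf_bch]
    split_ifs with hk
    · subst hk
      simpa using h
    · simp
  · rw [tf_apply, cf_smul, cf_bch, if_neg (Ne.symm hn), mul_zero]

theorem RR_bch (i : Fin 4) (n : Z4) : RR i (bch n) = rz i n • bch n := by
  refine cf_ext fun k => ?_
  rw [cf_RR, cf_smul, cf_bch]
  split_ifs with h
  · rw [h]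
  · simp

theorem cu_tf (i j : Fin 4) (n : Z4) (u : Fin 4 → ℂ) :
    cu i j (tf n u) = (rz i n * u j - rz j n * u i) • bch n := by
  rw [cu_apply, tf_apply, tf_apply, map_smul, map_smul, RR_bch, RR_bch, smul_smul, smul_smul,
    ← sub_smul]
  congr 1
  ring

theorem clo_of_orth (D : Data) (z : Y3) (hz : ∀ b ∈ V, inner ℂ z (Pf D b) = 0) :
    Clo (bet D z) := by
  intro n i j l
  rcases eq_or_ne n 0 with rfl | hn
  · simp
  have han : (an n : ℂ) ≠ 0 := by
    have := one_le_an hn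
    exact_mod_cast (by linarith : (an n) ≠ 0)
  have hsq : ∑ i, (n i : ℂ) * (n i : ℂ) = (an n : ℂ) ^ 2 := by
    have := an_sq n
    have h2 : ((an n ^ 2 : ℝ) : ℂ) = ((∑ i, (n i : ℝ) ^ 2 : ℝ) : ℂ) := by rw [this]
    push_cast at h2
    rw [h2]
    exact Finset.sum_congr rfl fun i _ => by ring
  set g : Fin 4 → Fin 4 → ℂ := fun i j => cf (bet D z i j) n with hg
  have key : ∀ u : Fin 4 → ℂ,
      (n 0 * u 1 - n 1 * u 0) * conj (g 2 3) - (n 0 * u 2 - n 2 * u 0) * conj (g 1 3) +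
      (n 0 * u 3 - n 3 * u 0) * conj (g 1 2) + (n 1 * u 2 - n 2 * u 1) * conj (g 0 3) -
      (n 1 * u 3 - n 3 * u 1) * conj (g 0 2) + (n 2 * u 3 - n 3 * u 2) * conj (g 0 1) = 0 := by
    intro u
    set s : ℂ := (∑ j, (n j : ℂ) * u j) / (an n : ℂ) ^ 2 with hs
    have h1 : ∑ j, (n j : ℂ) * (u j - s * n j) = 0 := by
      have : ∀ j, (n j : ℂ) * (u j - s * n j) = n j * u j - s * (n j * n j) := fun j => by ring
      simp only [this, Finset.sum_sub_distrib, ← Finset.mul_sum]
      rw [hsq, hs]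
      field_simp
      ring
    have h2 := hz _ (tf_mem hn h1)
    rw [inner_Pf] at h2
    have h3 : ∀ (w : H) (a : ℂ), inner ℂ w (a • bch n) = a * conj (cf w n) := by
      intro w a
      rw [inner_smul_right, ← inner_conj_symm, inner_bch]
    simp only [cu_tf, h3] at h2
    unfold rz at h2
    have h4 : Complex.I / (an n : ℂ) ≠ 0 := div_ne_zero Complex.I_ne_zero han
    refine (mul_eq_zero.1 ?_).resolve_left h4
    rw [← h2]
    simp only [hg]
    ring
  have hc : ∀ {a : ℂ}, conj a = 0 → a = 0 := fun {a} h => by simpa using h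
  have k0 := key (Pi.single 0 1)
  have k1 := key (Pi.single 1 1)
  have k2 := key (Pi.single 2 1)
  have k3 := key (Pi.single 3 1)
  simp only [Pi.single_apply] at k0 k1 k2 k3
  simp at k0 k1 k2 k3
  refine cyc_of_four (fun i => (n i : ℂ)) g (fun i j => ?_) ?_ ?_ ?_ ?_ i j l
  · simp only [hg]
    rw [anti_bet D z i j, cf_neg]
  · apply hc
    simp only [map_add, map_sub, map_mul, map_intCast]
    linear_combination -k0
  · apply hc
    simp only [map_add, map_sub, map_mul, map_intCast]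
    linear_combination k1
  · apply hc
    simp only [map_add, map_sub, map_mul, map_intCast]
    linear_combination -k2
  · apply hc
    simp only [map_add, map_sub, map_mul, map_intCast]
    linear_combination k3

end Vale.Agent.P247.H350.E3
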