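import Vale.Agent.P247.H350.E3.Bas

/-!
# Potentials in Coulomb gauge
-/

open scoped ContDiff Topology ComplexConjugate
open Set MeasureTheory Filter Metric

noncomputable section

namespace Vale.Agent.P247.H350.E3

open Vale.Agent.P247.H74 Vale.Agent.P247.H574 Vale.Agent.P247.H647 Vale.Agent.P247.H957
  Vale.Agent.P247.H94

/-- the length of `n` -/
def an (n : Z4) : ℝ := √(∑ i, (n i : ℝ) ^ 2)

theorem an_sq (n : Z4) : an n ^ 2 = ∑ i, (n i : ℝ) ^ 2 :=
  Real.sq_sqrt (Finset.sum_nonneg fun _ _ => sq_nonneg _)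

theorem an_nonneg (n : Z4) : 0 ≤ an n := Real.sqrt_nonneg _

theorem one_le_an {n : Z4} (h : n ≠ 0) : 1 ≤ an n := by
  obtain ⟨j, hj⟩ := Function.ne_iff.1 h
  have h1 : (1 : ℝ) ≤ (n j : ℝ) ^ 2 := by
    have h2 : (1 : ℤ) ≤ n j ^ 2 := by
      have h3 : n j ≠ 0 := hj
      have : 0 < n j ^ 2 := by positivity
      omega
    exact_mod_cast h2
  unfold an
  rw [Real.one_le_sqrt]
  exact h1.trans (Finset.single_le_sum (f := fun i => (n i : ℝ) ^ 2) (fun _ _ => sq_nonneg _)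
    (Finset.mem_univ j))

theorem abs_le_an (n : Z4) (i : Fin 4) : |(n i : ℝ)| ≤ an n := by
  unfold an
  refine Real.abs_le_sqrt ?_
  exact Finset.single_le_sum (f := fun i => (n i : ℝ) ^ 2) (fun _ _ => sq_nonneg _)
    (Finset.mem_univ i)

/-- symbol of the Riesz transforms -/
def rz (i : Fin 4) (n : Z4) : ℂ := Complex.I * n i / an n

/-- symbol of `(-Δ)^(-1/2)` -/
def pz (n : Z4) : ℂ := 1 / (2 * Real.pi * an n)

theorem rz_le (i : Fin 4) (n : Z4) : ‖rz i n‖ ≤ 1 := by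
  unfold rz
  rw [norm_div, norm_mul, Complex.norm_I, one_mul, Complex.norm_real, Real.norm_of_nonneg
    (an_nonneg n), Complex.norm_intCast]
  exact div_le_one_of_le₀ (abs_le_an n i) (an_nonneg n)

theorem pz_le (n : Z4) : ‖pz n‖ ≤ 1 := by
  unfold pz
  rw [norm_div, norm_one, norm_mul, norm_mul, Complex.norm_real, Complex.norm_real,
    Real.norm_of_nonneg (an_nonneg n), Real.norm_of_nonneg Real.pi_pos.le, Complex.norm_ofNat]
  rcases eq_or_ne n 0 with rfl | h
  · have : an 0 = 0 := by simp [an]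
    rw [this]
    simp
  · have h1 := one_le_an h
    have h2 := Real.pi_gt_three
    rw [div_le_one (by positivity)]
    nlinarith

theorem rz_zero (i : Fin 4) : rz i 0 = 0 := by simp [rz]

theorem rz_eq (i : Fin 4) (n : Z4) : rz i n = 2 * Real.pi * Complex.I * n i * pz n := by
  unfold rz pz
  rcases eq_or_ne n 0 with rfl | h
  · simp
  · have h1 : (an n : ℂ) ≠ 0 := by
      have := one_le_an h
      exact_mod_cast (by linarith : (an n) ≠ 0)
    have h2 : (Real.pi : ℂ) ≠ 0 := by exact_mod_cast Real.pi_ne_zero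
    field_simp

/-- Riesz transforms -/
def RR (i : Fin 4) : H →L[ℂ] H := mult (rz i)

/-- `(-Δ)^(-1/2)` -/
def PZ : H →L[ℂ] H := mult pz

theorem cf_RR (i : Fin 4) (w : H) (n : Z4) : cf (RR i w) n = rz i n * cf w n := cf_mult (rz_le i) w n

theorem cf_PZ (w : H) (n : Z4) : cf (PZ w) n = pz n * cf w n := cf_mult pz_le w n

/-- four component fields -/
abbrev X4 : Type := PiLp 2 (fun _ : Fin 4 => H)

/-- three component fields -/
abbrev Y3 : Type := PiLp 2 (fun _ : Fin 3 => H)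

/-- divergence free fields of mean zero -/
def V : Submodule ℂ X4 where
  carrier := {b | (∀ n : Z4, ∑ j, (n j : ℂ) * cf (b j) n = 0) ∧ ∀ j, cf (b j) 0 = 0}
  add_mem' := by
    rintro a b ⟨h1, h2⟩ ⟨h3, h4⟩
    refine ⟨fun n => ?_, fun j => ?_⟩
    · simp only [PiLp.add_apply, cf_add, mul_add, Finset.sum_add_distrib, h1, h3, add_zero]
    · simp only [PiLp.add_apply, cf_add, h2, h4, add_zero]
  zero_mem' := ⟨fun n => by simp [cf_zero], fun j => by simp [cf_zero]⟩
  smul_mem' := by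
    rintro a b ⟨h1, h2⟩
    refine ⟨fun n => ?_, fun j => ?_⟩
    · have : ∀ j, (n j : ℂ) * cf ((a • b) j) n = a * ((n j : ℂ) * cf (b j) n) := by
        intro j
        rw [PiLp.smul_apply, cf_smul]
        ring
      simp only [this, ← Finset.mul_sum, h1, mul_zero]
    · rw [PiLp.smul_apply, cf_smul, h2, mul_zero]

theorem isClosed_V : IsClosed (V : Set X4) := by
  have h1 : (V : Set X4) = (⋂ n : Z4, {b : X4 | ∑ j, (n j : ℂ) * cf (b j) n = 0}) ∩
      ⋂ j : Fin 4, {b : X4 | cf (b j) 0 = 0} := by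
    ext b
    simp only [mem_inter_iff, mem_iInter, mem_ofPred_eq]
    rfl
  rw [h1]
  have hp : ∀ (j : Fin 4), Continuous fun b : X4 => b j := fun j => PiLp.continuous_apply 2 _ j
  refine (isClosed_iInter fun n => ?_).inter (isClosed_iInter fun j => ?_)
  · exact isClosed_eq (continuous_finsetSum _ fun j _ =>
      continuous_const.mul ((cf_cont n).comp (hp j))) continuous_const
  · exact isClosed_eq ((cf_cont 0).comp (hp j)) continuous_const

instance : CompleteSpace V := isClosed_V.completeSpace_coe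

/-- the curl -/
def cu (i j : Fin 4) : X4 →L[ℂ] H :=
  RR i ∘L PiLp.proj 2 (fun _ : Fin 4 => H) j - RR j ∘L PiLp.proj 2 (fun _ : Fin 4 => H) i

theorem cu_apply (i j : Fin 4) (b : X4) : cu i j b = RR i (b j) - RR j (b i) := rfl

theorem cf_cu (i j : Fin 4) (b : X4) (n : Z4) :
    cf (cu i j b) n = rz i n * cf (b j) n - rz j n * cf (b i) n := by
  rw [cu_apply, cf_sub, cf_RR, cf_RR]

theorem anti_cu (b : X4) : Anti fun i j => cu i j b := by
  intro i j
  simp only [cu_apply]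
  abel

theorem clo_cu (b : X4) : Clo fun i j => cu i j b := by
  intro n i j l
  simp only [cf_cu]
  unfold rz
  ring

theorem cf_cu_zero (b : X4) (i j : Fin 4) : cf (cu i j b) 0 = 0 := by
  rw [cf_cu, rz_zero, rz_zero]
  ring

theorem lagrange (n : Fin 4 → ℝ) (b : Fin 4 → ℂ) (h : ∑ j, (n j : ℂ) * b j = 0) :
    ∑ i, ∑ j, ‖(n i : ℂ) * b j - n j * b i‖ ^ 2 = 2 * ((∑ i, n i ^ 2) * ∑ j, ‖b j‖ ^ 2) := by
  have h' : ∑ j, (n j : ℂ) * conj (b j) = 0 := by
    have := congrArg conj h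
    simpa using this
  have key : ((∑ i, ∑ j, ‖(n i : ℂ) * b j - n j * b i‖ ^ 2 : ℝ) : ℂ) =
      ((2 * ((∑ i, n i ^ 2) * ∑ j, ‖b j‖ ^ 2) : ℝ) : ℂ) := by
    push_cast
    simp only [← Complex.conj_mul', map_sub, map_mul, Complex.conj_ofReal]
    simp only [Fin.sum_univ_four] at h h' ⊢
    linear_combination (-2 * ((n 0 : ℂ) * conj (b 0) + n 1 * conj (b 1) + n 2 * conj (b 2) +
      n 3 * conj (b 3))) * h
  exact_mod_cast key

theorem norm_cu {b : X4} (hb : b ∈ V) : ∑ i, ∑ j, ‖cu i j b‖ ^ 2 = 2 * ‖b‖ ^ 2 := by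
  have h1 : HasSum (fun n => ∑ i, ∑ j, ‖cf (cu i j b) n‖ ^ 2) (∑ i, ∑ j, ‖cu i j b‖ ^ 2) :=
    hasSum_sum fun i _ => hasSum_sum fun j _ => hasSum_norm _
  have h2 : HasSum (fun n => 2 * ∑ j, ‖cf (b j) n‖ ^ 2) (2 * ‖b‖ ^ 2) := by
    rw [PiLp.norm_sq_eq_of_L2]
    exact (hasSum_sum fun j _ => hasSum_norm _).mul_left 2
  have h3 : (fun n => ∑ i, ∑ j, ‖cf (cu i j b) n‖ ^ 2) = fun n => 2 * ∑ j, ‖cf (b j) n‖ ^ 2 := by
    funext n
    rcases eq_or_ne n 0 with rfl | hn
    · simp only [cf_cu_zero, hb.2]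
      simp
    have han : 0 < an n := lt_of_lt_of_le one_pos (one_le_an hn)
    have h4 := lagrange (fun i => (n i : ℝ)) (fun j => cf (b j) n) (by
      have := hb.1 n
      push_cast
      exact this)
    have h5 : ∀ i j, ‖cf (cu i j b) n‖ ^ 2 =
        (an n ^ 2)⁻¹ * ‖((n i : ℝ) : ℂ) * cf (b j) n - ((n j : ℝ) : ℂ) * cf (b i) n‖ ^ 2 := by
      intro i j
      have h6 : cf (cu i j b) n = Complex.I / an n *
          (((n i : ℝ) : ℂ) * cf (b j) n - ((n j : ℝ) : ℂ) * cf (b i) n) := by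
        rw [cf_cu]
        unfold rz
        push_cast
        ring
      rw [h6, norm_mul, mul_pow, norm_div, Complex.norm_I, Complex.norm_real,
        Real.norm_of_nonneg han.le]
      congr 1
      rw [div_pow, one_pow, one_div]
    simp only [h5, ← Finset.mul_sum]
    rw [h4, an_sq]
    have h7 : (∑ i, (n i : ℝ) ^ 2) ≠ 0 := by
      rw [← an_sq]
      positivity
    field_simp
  rw [h3] at h1
  exact h1.unique h2

end Vale.Agent.P247.H350.E3
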