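import Vale.Agent.P247.H94.E1
import Vale.Agent.P247.H647.Sta
import Vale.Agent.P247.H350.FF1

/-!
# The operator `d⁺` on `T⁴`: exact statements

Square integrable complex two-forms on the cube are arrays `η : Fin 4 → Fin 4 → H`.
`COER_statement` is the coercivity of `η ↦ w4 (η, tri l)` on exact forms, `RNG_statement` the
determination of its range.
-/

open scoped ContDiff Topology ComplexConjugate
open Set MeasureTheory Filter Metric

noncomputable section

namespace Vale.Agent.P247.H350.E3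

open Vale.Agent.P247.H74 Vale.Agent.P247.H574 Vale.Agent.P247.H647 Vale.Agent.P247.H957
  Vale.Agent.P247.H94

/-- Fourier coefficients of `w : H` -/
def cf (w : H) (n : Fin 4 → ℤ) : ℂ := ∫ x in Icc (0 : R4) 1, FF.ch (-n) x * w x

/-- antisymmetric -/
def Anti (η : Fin 4 → Fin 4 → H) : Prop := ∀ i j, η j i = -η i j

/-- weakly closed -/
def Clo (η : Fin 4 → Fin 4 → H) : Prop := ∀ (n : Fin 4 → ℤ) (i j l : Fin 4),
  (n i : ℂ) * cf (η j l) n + (n j : ℂ) * cf (η l i) n + (n l : ℂ) * cf (η i j) n = 0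

/-- the coefficients of `tri D l` -/
def tc (D : Data) (l : Fin 3) (i j : Fin 4) (x : R4) : ℂ := ((tri D l).val x (e i) (e j) : ℂ)

/-- the operator `η ↦ w4 (η, tri l)` -/
def PP (D : Data) (η : Fin 4 → Fin 4 → H) (l : Fin 3) : H :=
  mulOp (tc D l 2 3) (η 0 1) - mulOp (tc D l 1 3) (η 0 2) + mulOp (tc D l 1 2) (η 0 3)
    + mulOp (tc D l 0 3) (η 1 2) - mulOp (tc D l 0 2) (η 1 3) + mulOp (tc D l 0 1) (η 2 3)

/-- coercivity on exact forms -/
def COER_statement : Prop := ∀ (D : Data), Quat D → ∃ C > 0, ∀ η : Fin 4 → Fin 4 → H,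
  Anti η → Clo η → (∀ i j, cf (η i j) 0 = 0) →
    ∑ i, ∑ j, ‖η i j‖ ^ 2 ≤ C * ∑ l, ‖PP D η l‖ ^ 2

/-- weakly closed combinations of the triple have constant coefficients -/
def RNG_statement : Prop := ∀ (D : Data), Quat D → ∀ y : Fin 3 → H,
  Clo (fun i j => ∑ l, mulOp (tc D l i j) (y l)) → ∃ c : Fin 3 → ℂ, ∀ l, y l =ᵐ[mQ] fun _ => c l

end Vale.Agent.P247.H350.E3
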